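import Vale.Agent.P224.FV.Evol

namespace Vale.Agent.P224.FV

open MeasureTheory Set Real Filter
open scoped RealInnerProductSpace Topology

set_option linter.unusedSectionVars false

lemma trig_pos {φ : ℝ} (hφ : φ ∈ Ioo 0 (π / 2)) :
    0 < sin φ ∧ 0 < cos φ ∧ φ ∈ Ioo (-(π / 2)) (π / 2) :=
  ⟨sin_pos_of_pos_of_lt_pi hφ.1 (by linarith [hφ.2, pi_pos]),
    cos_pos_of_mem_Ioo ⟨by linarith [hφ.1, pi_pos], hφ.2⟩, by linarith [hφ.1, pi_pos], hφ.2⟩

section

variable {X : Type*} [MeasurableSpace X] {μ : Measure X} [IsFiniteMeasure μ]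

lemma abs_one_le (_x : X) : |(1 : ℝ)| ≤ 1 := by simp

lemma int_bdd {g : X → ℝ} (hg : Measurable g) {C : ℝ} (hC : ∀ x, |g x| ≤ C) : Integrable g μ :=
  Integrable.of_bound hg.aestronglyMeasurable C (Eventually.of_forall hC)

lemma EE_at_zero (s : X → ℝ) (k : ℕ) (g : X → ℝ) : EE μ s k g 0 = ∫ x, g x ∂μ := by
  unfold EE DD
  simp

lemma lin2 {F1 F2 : X → ℝ} (i1 : Integrable F1 μ) (i2 : Integrable F2 μ) (a b : ℝ) :
    ∫ x, (a * F1 x + b * F2 x) ∂μ = a * ∫ x, F1 x ∂μ + b * ∫ x, F2 x ∂μ := by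
  rw [integral_add (i1.const_mul _) (i2.const_mul _), integral_const_mul, integral_const_mul]

lemma lin3 {F1 F2 F3 : X → ℝ} (i1 : Integrable F1 μ) (i2 : Integrable F2 μ)
    (i3 : Integrable F3 μ) (a b c : ℝ) :
    ∫ x, (a * F1 x + b * F2 x + c * F3 x) ∂μ =
      a * ∫ x, F1 x ∂μ + b * ∫ x, F2 x ∂μ + c * ∫ x, F3 x ∂μ := by
  have j : Integrable (fun x => a * F1 x + b * F2 x) μ := (i1.const_mul _).add (i2.const_mul _)
  rw [integral_add j (i3.const_mul _), lin2 i1 i2, integral_const_mul]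

lemma lin4 {F1 F2 F3 F4 : X → ℝ} (i1 : Integrable F1 μ) (i2 : Integrable F2 μ)
    (i3 : Integrable F3 μ) (i4 : Integrable F4 μ) (a b c d : ℝ) :
    ∫ x, (a * F1 x + b * F2 x + c * F3 x + d * F4 x) ∂μ =
      a * ∫ x, F1 x ∂μ + b * ∫ x, F2 x ∂μ + c * ∫ x, F3 x ∂μ + d * ∫ x, F4 x ∂μ := by
  have j : Integrable (fun x => a * F1 x + b * F2 x + c * F3 x) μ :=
    ((i1.const_mul _).add (i2.const_mul _)).add (i3.const_mul _)
  rw [integral_add j (i4.const_mul _), lin3 i1 i2 i3, integral_const_mul]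

end

section

variable {X : Type*} [MeasurableSpace X] {E : Type*} [NormedAddCommGroup E]
  [InnerProductSpace ℝ E] [FiniteDimensional ℝ E] [MeasurableSpace E] [BorelSpace E]
  {μ : Measure X} [IsFiniteMeasure μ] {p : X → E}

/-- positivity of the powers of the inner product -/
lemma pd_pow (hp : Measurable p) (hp1 : ∀ x, ‖p x‖ = 1) (k : ℕ) : ∀ {ν : X → ℝ}, Measurable ν →
    ∀ {C : ℝ}, (∀ x, |ν x| ≤ C) →
    0 ≤ ∫ q, ν q.1 * ν q.2 * ⟪p q.1, p q.2⟫ ^ k ∂(μ.prod μ) := by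
  induction k with
  | zero =>
    intro ν hν C hC
    simp only [pow_zero, mul_one]
    rw [integral_prod_mul]
    exact mul_self_nonneg _
  | succ k ih =>
    intro ν hν C hC
    set b := stdOrthonormalBasis ℝ E
    have hm : ∀ i, Measurable (fun x => ν x * ⟪p x, b i⟫) := fun i =>
      hν.mul (hp.inner measurable_const)
    have hb : ∀ i x, |ν x * ⟪p x, b i⟫| ≤ C := by
      intro i x
      rw [abs_mul]
      have h1 : |⟪p x, b i⟫| ≤ 1 := by
        have := abs_real_inner_le_norm (p x) (b i)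
        rwa [hp1, b.norm_eq_one, mul_one] at this
      calc |ν x| * |⟪p x, b i⟫| ≤ C * 1 :=
            mul_le_mul (hC x) h1 (abs_nonneg _) ((abs_nonneg _).trans (hC x))
        _ = C := mul_one C
    have e : ∀ q : X × X, ν q.1 * ν q.2 * ⟪p q.1, p q.2⟫ ^ (k + 1)
        = ∑ i, (ν q.1 * ⟪p q.1, b i⟫) * (ν q.2 * ⟪p q.2, b i⟫) * ⟪p q.1, p q.2⟫ ^ k := by
      intro q
      rw [← Finset.sum_mul, pow_succ']
      have e2 : ∑ i, (ν q.1 * ⟪p q.1, b i⟫) * (ν q.2 * ⟪p q.2, b i⟫)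
          = ν q.1 * ν q.2 * ⟪p q.1, p q.2⟫ := by
        rw [← b.sum_inner_mul_inner (p q.1) (p q.2), Finset.mul_sum]
        exact Finset.sum_congr rfl fun i _ => by rw [real_inner_comm (p q.2) (b i)]; ring
      rw [e2]; ring
    simp only [e]
    have hs : Measurable (fun q : X × X => ⟪p q.1, p q.2⟫) :=
      (hp.comp measurable_fst).inner (hp.comp measurable_snd)
    rw [integral_finsetSum]
    · exact Finset.sum_nonneg fun i _ => ih (hm i) (hb i)
    · intro i _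
      refine int_bdd (C := C * C) ?_ ?_
      · exact (((hm i).comp measurable_fst).mul ((hm i).comp measurable_snd)).mul (hs.pow_const k)
      · intro q
        rw [abs_mul, abs_mul, abs_pow]
        have h1 : |⟪p q.1, p q.2⟫| ≤ 1 := by
          have := abs_real_inner_le_norm (p q.1) (p q.2)
          rwa [hp1, hp1, mul_one] at this
        have h2 : |⟪p q.1, p q.2⟫| ^ k ≤ 1 := pow_le_one₀ (abs_nonneg _) h1
        have hC0 : 0 ≤ C := (abs_nonneg _).trans (hb i q.1)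
        calc |ν q.1 * ⟪p q.1, b i⟫| * |ν q.2 * ⟪p q.2, b i⟫| * |⟪p q.1, p q.2⟫| ^ k
            ≤ C * C * 1 := mul_le_mul (mul_le_mul (hb i q.1) (hb i q.2) (abs_nonneg _) hC0) h2
              (by positivity) (by positivity)
          _ = C * C := mul_one _

end

end Vale.Agent.P224.FV
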