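import Vale.Agent.P224.GG.Psi
import Vale.Agent.P224.FV.TwoPoint

namespace Vale.Agent.P224.FV

open MeasureTheory Set Real Filter
open scoped RealInnerProductSpace Topology

set_option linter.unusedSectionVars false

section

variable {X : Type*} [MeasurableSpace X] {E : Type*} [NormedAddCommGroup E]
  [InnerProductSpace ℝ E] [FiniteDimensional ℝ E] [MeasurableSpace E] [BorelSpace E]

/-- kernel integrals with a centre -/
noncomputable def E1 (μ : Measure X) (p : X → E) (z : X) (k : ℕ) (g : X → ℝ) (φ : ℝ) : ℝ :=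
  EE μ (fun x => ⟪p x, p z⟫) k g φ

/-- two point kernel integrals -/
noncomputable def E2 (μ : Measure X) (p : X → E) (k : ℕ) (g : X × X → ℝ) (φ : ℝ) : ℝ :=
  EE (μ.prod μ) (fun q => ⟪p q.1, p q.2⟫) k g φ

/-- the identities for the gap theorem -/
structure Sys (μ : Measure X) (m : ℕ) (p n : X → E) : Prop extends TwoPt μ m p n where
  orth : ∀ x, ⟪p x, n x⟫ = 0
  onea : ∀ z, ∀ φ ∈ Ioo 0 (π / 2), ((m : ℝ) + 2) * E1 μ p z (m + 1) (fun _ => 1) φ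
      - E1 μ p z m (fun _ => 1) φ = ((m : ℝ) + 1) * (cos φ ^ 2 * E1 μ p z (m + 2) (fun _ => 1) φ
        + sin φ ^ 2 * E1 μ p z (m + 2) (fun x => ⟪n x, p z⟫ ^ 2) φ)
  idh : ∀ z, ∀ φ ∈ Ioo 0 (π / 2), (m : ℝ) * E1 μ p z (m + 1) (fun x => ⟪p x, n z⟫ ^ 2) φ
      + E1 μ p z m (fun x => ⟪p x, n z⟫ ^ 2) φ
      + m * sin φ * E1 μ p z (m + 1) (fun x => ⟪p x, n z⟫ * ⟪n x, p z⟫ * ⟪n x, n z⟫) φ
      = E1 μ p z m (fun x => 1 - ⟪n x, n z⟫ ^ 2) φ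
  idg : ∀ (a : E) z, ∀ φ ∈ Ioo 0 (π / 2),
      ((m : ℝ) + 2) * E1 μ p z (m + 1) (fun x => (⟪p x, a⟫ + ⟪p z, a⟫) ^ 2) φ
      = ((m : ℝ) + 1) * (cos φ ^ 2 * E1 μ p z (m + 2) (fun x => (⟪p x, a⟫ + ⟪p z, a⟫) ^ 2) φ
        + sin φ ^ 2 * E1 μ p z (m + 2)
          (fun x => (⟪p x, a⟫ + ⟪p z, a⟫) ^ 2 * ⟪n x, p z⟫ ^ 2) φ)
        + 2 / m * E1 μ p z m (fun x => ‖a‖ ^ 2 - ⟪p x, a⟫ ^ 2 - ⟪n x, a⟫ ^ 2) φ
        + E1 μ p z m (fun x => ⟪p z, a⟫ ^ 2 - ⟪p x, a⟫ ^ 2) φ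

variable {μ : Measure X} [IsFiniteMeasure μ] {m : ℕ} {p n : X → E}

lemma Pts.ms (h : Pts p n) : Measurable (fun q : X × X => ⟪p q.1, p q.2⟫) :=
  (h.mp.comp measurable_fst).inner (h.mp.comp measurable_snd)

lemma Pts.ms1 (h : Pts p n) (z : X) : Measurable (fun x => ⟪p x, p z⟫) :=
  h.mp.inner measurable_const

lemma Pts.abs_le (_h : Pts p n) {u v : E} (hu : ‖u‖ = 1) (hv : ‖v‖ = 1) : |⟪u, v⟫| ≤ 1 := by
  have := abs_real_inner_le_norm u v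
  rwa [hu, hv, mul_one] at this

lemma E2_prod (h : Pts p n) {g : X × X → ℝ} (hg : Measurable g) {C : ℝ} (hC : ∀ q, |g q| ≤ C)
    (k : ℕ) {φ : ℝ} (hφ : φ ∈ Ioo (-(π / 2)) (π / 2)) :
    Integrable (fun z => E1 μ p z k (fun x => g (x, z)) φ) μ ∧
    E2 μ p k g φ = ∫ z, E1 μ p z k (fun x => g (x, z)) φ ∂μ := by
  have i1 := int_EE (μ := μ.prod μ) h.ms hg (fun q => h.abs_pp q.1 q.2) hC hφ k
  exact ⟨i1.integral_prod_right, integral_prod_symm _ i1⟩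

lemma E2_swap (g : X × X → ℝ) (k : ℕ) (φ : ℝ) :
    E2 μ p k (fun q => g q.swap) φ = E2 μ p k g φ := by
  unfold E2 EE
  rw [← integral_prod_swap (μ := μ) (ν := μ) (fun q => g q * DD k φ ⟪p q.1, p q.2⟫)]
  refine integral_congr_ae ?_
  filter_upwards with q
  simp only [Prod.fst_swap, Prod.snd_swap]
  rw [real_inner_comm (p q.1) (p q.2)]

/-- the first identity in kernel form -/
lemma TwoPt.oneb (h : TwoPt μ m p n) (z : X) {φ : ℝ} (hφ : φ ∈ Ioo 0 (π / 2)) :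
    E1 μ p z m (fun _ => 1) φ = cos φ ^ 2 * E1 μ p z (m + 1) (fun _ => 1) φ
      + sin φ ^ 2 * E1 μ p z (m + 1) (fun x => ⟪n x, p z⟫ ^ 2) φ := by
  obtain ⟨hs, hc, hI⟩ := trig_pos hφ
  have h1 := h.id1 z φ hI
  have hsp : ∀ x, |⟪p x, p z⟫| ≤ 1 := fun x => h.abs_pp x z
  have h2 := EE_s (μ := μ) (h.toPts.ms1 z) (g := fun _ => 1) measurable_const hsp abs_one_le m hI
  have i1 := int_EE (μ := μ) (h.toPts.ms1 z) (g := fun _ => 1) measurable_const hsp abs_one_le hI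
    (m + 1)
  have i2 := int_EE (μ := μ) (h.toPts.ms1 z) (g := fun x => 1 * ⟪p x, p z⟫)
    (measurable_const.mul (h.toPts.ms1 z)) hsp (C := 1) (fun x => by rw [one_mul]; exact hsp x) hI
    (m + 1)
  have e1 : ∫ x, (⟪p x, p z⟫ - sin φ) / (1 - ⟪p x, p z⟫ * sin φ) ^ (m + 1) ∂μ
      = EE μ (fun x => ⟪p x, p z⟫) (m + 1) (fun x => 1 * ⟪p x, p z⟫) φ
        - sin φ * EE μ (fun x => ⟪p x, p z⟫) (m + 1) (fun _ => 1) φ := by
    unfold EE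
    rw [← integral_const_mul, ← integral_sub i2 (i1.const_mul _)]
    refine integral_congr_ae ?_
    filter_upwards with x
    unfold DD
    ring
  have e2 : ∫ x, ⟪n x, p z⟫ ^ 2 / (1 - ⟪p x, p z⟫ * sin φ) ^ (m + 1) ∂μ
      = EE μ (fun x => ⟪p x, p z⟫) (m + 1) (fun x => ⟪n x, p z⟫ ^ 2) φ := by
    unfold EE
    refine integral_congr_ae ?_
    filter_upwards with x
    unfold DD
    ring
  rw [e1, e2] at h1
  unfold E1
  have hS : cos φ ^ 2 = 1 - sin φ ^ 2 := by have := sin_sq_add_cos_sq φ; linarith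
  rw [hS]
  linear_combination h2 - sin φ * h1

lemma meas_np (h : Pts p n) : Measurable (fun q : X × X => ⟪n q.1, p q.2⟫) :=
  (h.mn.comp measurable_fst).inner (h.mp.comp measurable_snd)

lemma meas_pn (h : Pts p n) : Measurable (fun q : X × X => ⟪p q.1, n q.2⟫) :=
  (h.mp.comp measurable_fst).inner (h.mn.comp measurable_snd)

lemma meas_nn (h : Pts p n) : Measurable (fun q : X × X => ⟪n q.1, n q.2⟫) :=
  (h.mn.comp measurable_fst).inner (h.mn.comp measurable_snd)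

lemma abs_sq_le {a : ℝ} (h : |a| ≤ 1) : |a ^ 2| ≤ 1 := by
  rw [abs_pow]; exact pow_le_one₀ (abs_nonneg _) h

/-- two point form of the first identity -/
lemma TwoPt.E2_one (h : TwoPt μ m p n) {φ : ℝ} (hφ : φ ∈ Ioo 0 (π / 2)) :
    E2 μ p m (fun _ => 1) φ = cos φ ^ 2 * E2 μ p (m + 1) (fun _ => 1) φ
      + sin φ ^ 2 * E2 μ p (m + 1) (fun q => ⟪n q.1, p q.2⟫ ^ 2) φ := by
  obtain ⟨hs, hc, hI⟩ := trig_pos hφ
  obtain ⟨i0, e0⟩ := E2_prod (μ := μ) h.toPts (g := fun _ => 1) measurable_const abs_one_le m hI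
  obtain ⟨i1, e1⟩ := E2_prod (μ := μ) h.toPts (g := fun _ => 1) measurable_const abs_one_le
    (m + 1) hI
  obtain ⟨i2, e2⟩ := E2_prod (μ := μ) h.toPts (g := fun q => ⟪n q.1, p q.2⟫ ^ 2)
    ((meas_np h.toPts).pow_const 2) (C := 1)
    (fun q => abs_sq_le (h.toPts.abs_le (h.nn _) (h.np _))) (m + 1) hI
  rw [e0, e1, e2, ← lin2 i1 i2]
  refine integral_congr_ae ?_
  filter_upwards with z
  exact h.oneb z hφ

/-- symmetry of the squares -/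
lemma E2_pn (k : ℕ) (φ : ℝ) : E2 μ p k (fun q => ⟪p q.1, n q.2⟫ ^ 2) φ
    = E2 μ p k (fun q => ⟪n q.1, p q.2⟫ ^ 2) φ := by
  rw [← E2_swap (fun q => ⟪n q.1, p q.2⟫ ^ 2)]
  simp only [Prod.fst_swap, Prod.snd_swap]
  congr 1
  funext q
  rw [real_inner_comm]

lemma abs_htf (h : Pts p n) (q : X × X) :
    |⟪p q.1, n q.2⟫ * ⟪n q.1, p q.2⟫ * ⟪n q.1, n q.2⟫| ≤ 1 := by
  rw [abs_mul, abs_mul]
  exact mul_le_one₀ (mul_le_one₀ (h.abs_le (h.np _) (h.nn _)) (abs_nonneg _)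
    (h.abs_le (h.nn _) (h.np _))) (abs_nonneg _) (h.abs_le (h.nn _) (h.nn _))

lemma abs_1f (h : Pts p n) (q : X × X) : |1 - ⟪n q.1, n q.2⟫ ^ 2| ≤ 1 := by
  have h1 := abs_sq_le (h.abs_le (h.nn q.1) (h.nn q.2))
  have h2 := (abs_le.mp h1).2
  have h3 := sq_nonneg ⟪n q.1, n q.2⟫
  rw [abs_le]; constructor <;> linarith

/-- two point form of the second identity -/
lemma Sys.E2_idh (h : Sys μ m p n) {φ : ℝ} (hφ : φ ∈ Ioo 0 (π / 2)) :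
    (m : ℝ) * E2 μ p (m + 1) (fun q => ⟪n q.1, p q.2⟫ ^ 2) φ
      + E2 μ p m (fun q => ⟪n q.1, p q.2⟫ ^ 2) φ
      + m * sin φ * E2 μ p (m + 1)
        (fun q => ⟪p q.1, n q.2⟫ * ⟪n q.1, p q.2⟫ * ⟪n q.1, n q.2⟫) φ
      = E2 μ p m (fun q => 1 - ⟪n q.1, n q.2⟫ ^ 2) φ := by
  obtain ⟨hs, hc, hI⟩ := trig_pos hφ
  obtain ⟨i1, e1⟩ := E2_prod (μ := μ) h.toPts (g := fun q => ⟪p q.1, n q.2⟫ ^ 2)
    ((meas_pn h.toPts).pow_const 2) (C := 1)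
    (fun q => abs_sq_le (h.toPts.abs_le (h.np _) (h.nn _))) (m + 1) hI
  obtain ⟨i2, e2⟩ := E2_prod (μ := μ) h.toPts (g := fun q => ⟪p q.1, n q.2⟫ ^ 2)
    ((meas_pn h.toPts).pow_const 2) (C := 1)
    (fun q => abs_sq_le (h.toPts.abs_le (h.np _) (h.nn _))) m hI
  obtain ⟨i3, e3⟩ := E2_prod (μ := μ) h.toPts
    (g := fun q => ⟪p q.1, n q.2⟫ * ⟪n q.1, p q.2⟫ * ⟪n q.1, n q.2⟫)
    (((meas_pn h.toPts).mul (meas_np h.toPts)).mul (meas_nn h.toPts)) (abs_htf h.toPts) (m + 1) hI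
  obtain ⟨i4, e4⟩ := E2_prod (μ := μ) h.toPts (g := fun q => 1 - ⟪n q.1, n q.2⟫ ^ 2)
    (((meas_nn h.toPts).pow_const 2).const_sub 1) (abs_1f h.toPts) m hI
  rw [← E2_pn (n := n) (m + 1), ← E2_pn (n := n) m, e1, e2, e3, e4]
  rw [← one_mul (∫ z, E1 μ p z m (fun x => ⟪p (x, z).1, n (x, z).2⟫ ^ 2) φ ∂μ),
    ← lin3 i1 i2 i3]
  refine integral_congr_ae ?_
  filter_upwards with z
  rw [one_mul]
  exact h.idh z φ hφ

end

end Vale.Agent.P224.FV
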