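import Vale.Agent.P224.GG.Base
import Vale.Agent.P224.FV.SerComp

namespace Vale.Agent.P224.FV

open MeasureTheory Set Real Filter
open scoped RealInnerProductSpace Topology

set_option linter.unusedSectionVars false

section

variable {X : Type*} [MeasurableSpace X] {E : Type*} [NormedAddCommGroup E]
  [InnerProductSpace ℝ E] [FiniteDimensional ℝ E] [MeasurableSpace E] [BorelSpace E]
  {μ : Measure X} [IsFiniteMeasure μ] {p : X → E}

/-- positivity of the kernel -/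
lemma pd_ker (hp : Measurable p) (hp1 : ∀ x, ‖p x‖ = 1) {m : ℕ} (hm : 1 ≤ m) {ν : X → ℝ}
    (hν : Measurable ν) {C : ℝ} (hC : ∀ x, |ν x| ≤ C) {φ : ℝ} (hφ : φ ∈ Ico 0 (π / 2)) :
    0 ≤ EE (μ.prod μ) (fun q => ⟪p q.1, p q.2⟫) m (fun q => ν q.1 * ν q.2) φ := by
  have hφ' : φ ∈ Ioo (-(π / 2)) (π / 2) := ⟨by linarith [hφ.1, pi_pos], hφ.2⟩
  have hs0 : 0 ≤ sin φ := sin_nonneg_of_nonneg_of_le_pi hφ.1 (by linarith [hφ.2, pi_pos])
  have hs1 := abs_sin_lt_one hφ'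
  have habs : ∀ q : X × X, |⟪p q.1, p q.2⟫| ≤ 1 := by
    intro q
    have := abs_real_inner_le_norm (p q.1) (p q.2)
    rwa [hp1, hp1, mul_one] at this
  have hms : Measurable (fun q : X × X => ⟪p q.1, p q.2⟫) :=
    (hp.comp measurable_fst).inner (hp.comp measurable_snd)
  have hmν : Measurable (fun q : X × X => ν q.1 * ν q.2) :=
    (hν.comp measurable_fst).mul (hν.comp measurable_snd)
  have hbν : ∀ q : X × X, |ν q.1 * ν q.2| ≤ C * C := fun q => by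
    rw [abs_mul]
    exact mul_le_mul (hC _) (hC _) (abs_nonneg _) ((abs_nonneg _).trans (hC q.1))
  have hbs : Summable (fun j => bc m j * |sin φ| ^ j) := (bc_PG hm).summable (by rwa [abs_abs])
  have hint : ∀ j, Integrable (fun q : X × X => bc m j * sin φ ^ j *
      (ν q.1 * ν q.2 * ⟪p q.1, p q.2⟫ ^ j)) (μ.prod μ) := fun j =>
    (int_bdd (g := fun q : X × X => ν q.1 * ν q.2 * ⟪p q.1, p q.2⟫ ^ j) (C := C * C)
      (hmν.mul (hms.pow_const j)) (fun q => by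
      rw [abs_mul, abs_pow]
      calc |ν q.1 * ν q.2| * |⟪p q.1, p q.2⟫| ^ j ≤ C * C * 1 :=
            mul_le_mul (hbν q) (pow_le_one₀ (abs_nonneg _) (habs q)) (by positivity)
              ((abs_nonneg _).trans (hbν q))
        _ = C * C := mul_one _)).const_mul _
  have hsum : Summable (fun j => ∫ q, ‖bc m j * sin φ ^ j *
      (ν q.1 * ν q.2 * ⟪p q.1, p q.2⟫ ^ j)‖ ∂(μ.prod μ)) := by
    refine Summable.of_nonneg_of_le (fun j => integral_nonneg fun q => norm_nonneg _) ?_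
      (hbs.mul_right (C * C * (μ.prod μ).real univ))
    intro j
    have hb : ∀ q : X × X, ‖bc m j * sin φ ^ j *
        (ν q.1 * ν q.2 * ⟪p q.1, p q.2⟫ ^ j)‖ ≤ bc m j * |sin φ| ^ j * (C * C) := by
      intro q
      rw [norm_mul, norm_mul, Real.norm_eq_abs, Real.norm_eq_abs, Real.norm_eq_abs,
        abs_of_nonneg (bc_nonneg m j), abs_pow, abs_mul, abs_pow]
      have h0 := bc_nonneg m j
      refine mul_le_mul_of_nonneg_left ?_ (by positivity)
      calc |ν q.1 * ν q.2| * |⟪p q.1, p q.2⟫| ^ j ≤ C * C * 1 :=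
            mul_le_mul (hbν q) (pow_le_one₀ (abs_nonneg _) (habs q)) (by positivity)
              ((abs_nonneg _).trans (hbν q))
        _ = C * C := mul_one _
    calc ∫ q, ‖bc m j * sin φ ^ j * (ν q.1 * ν q.2 * ⟪p q.1, p q.2⟫ ^ j)‖ ∂(μ.prod μ)
        ≤ ∫ _q : X × X, bc m j * |sin φ| ^ j * (C * C) ∂(μ.prod μ) :=
          integral_mono (hint j).norm (integrable_const _) hb
      _ = _ := by
          rw [integral_const, smul_eq_mul]; ring
  have key := hasSum_integral_of_summable_integral_norm hint hsum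
  have e : EE (μ.prod μ) (fun q => ⟪p q.1, p q.2⟫) m (fun q => ν q.1 * ν q.2) φ
      = ∫ q, ∑' j, bc m j * sin φ ^ j * (ν q.1 * ν q.2 * ⟪p q.1, p q.2⟫ ^ j) ∂(μ.prod μ) := by
    unfold EE
    refine integral_congr_ae ?_
    filter_upwards with q
    have hx : |⟪p q.1, p q.2⟫ * sin φ| < 1 := by
      rw [abs_mul]
      calc |⟪p q.1, p q.2⟫| * |sin φ| ≤ 1 * |sin φ| :=
            mul_le_mul_of_nonneg_right (habs q) (abs_nonneg _)
        _ < 1 := by rwa [one_mul]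
    have h1 := (hasSum_kernel hm hx).mul_left (ν q.1 * ν q.2)
    rw [one_div] at h1
    unfold DD
    rw [← h1.tsum_eq]
    apply tsum_congr
    intro j
    rw [mul_pow]; ring
  rw [e, ← key.tsum_eq]
  refine tsum_nonneg fun j => ?_
  rw [integral_const_mul]
  exact mul_nonneg (mul_nonneg (bc_nonneg m j) (pow_nonneg hs0 j)) (pd_pow hp hp1 j hν hC)

/-- positivity for the symmetric two tensors -/
lemma pd_two {n : X → E} (h : Pts p n) {m : ℕ} (hm : 1 ≤ m) {e : E} (he : ‖e‖ = 1) (c : ℝ)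
    {φ : ℝ} (hφ : φ ∈ Ico 0 (π / 2)) :
    0 ≤ EE (μ.prod μ) (fun q => ⟪p q.1, p q.2⟫) m
      (fun q => ⟪n q.1, n q.2⟫ ^ 2 - c * ⟪n q.1, e⟫ ^ 2 - c * ⟪n q.2, e⟫ ^ 2 + c ^ 2) φ := by
  have hφ' : φ ∈ Ioo (-(π / 2)) (π / 2) := ⟨by linarith [hφ.1, pi_pos], hφ.2⟩
  set b := stdOrthonormalBasis ℝ E
  set G : Fin (Module.finrank ℝ E) → Fin (Module.finrank ℝ E) → X → ℝ :=
    fun i j x => ⟪n x, b i⟫ * ⟪n x, b j⟫ - c * (⟪e, b i⟫ * ⟪e, b j⟫) with hG
  have hmG : ∀ i j, Measurable (G i j) := fun i j =>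
    ((h.mn.inner measurable_const).mul (h.mn.inner measurable_const)).sub_const _
  have hb1 : ∀ (v : E), ‖v‖ = 1 → ∀ i, |⟪v, b i⟫| ≤ 1 := by
    intro v hv i
    have := abs_real_inner_le_norm v (b i)
    rwa [hv, b.norm_eq_one, mul_one] at this
  have hCG : ∀ i j x, |G i j x| ≤ 1 + |c| := by
    intro i j x
    simp only [hG]
    have h1 : |⟪n x, b i⟫ * ⟪n x, b j⟫| ≤ 1 := by
      rw [abs_mul]
      exact mul_le_one₀ (hb1 _ (h.nn x) i) (abs_nonneg _) (hb1 _ (h.nn x) j)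
    have h2 : |c * (⟪e, b i⟫ * ⟪e, b j⟫)| ≤ |c| := by
      rw [abs_mul, abs_mul]
      calc |c| * (|⟪e, b i⟫| * |⟪e, b j⟫|) ≤ |c| * 1 := by
            gcongr
            exact mul_le_one₀ (hb1 _ he i) (abs_nonneg _) (hb1 _ he j)
        _ = |c| := mul_one _
    calc |⟪n x, b i⟫ * ⟪n x, b j⟫ - c * (⟪e, b i⟫ * ⟪e, b j⟫)|
        ≤ |⟪n x, b i⟫ * ⟪n x, b j⟫| + |c * (⟪e, b i⟫ * ⟪e, b j⟫)| := abs_sub _ _
      _ ≤ 1 + |c| := add_le_add h1 h2
  have hin : ∀ u v : E, ∑ i, ⟪u, b i⟫ * ⟪v, b i⟫ = ⟪u, v⟫ := by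
    intro u v
    rw [← b.sum_inner_mul_inner u v]
    exact Finset.sum_congr rfl fun i _ => by rw [real_inner_comm v (b i)]
  have e1 : ∀ q : X × X, ⟪n q.1, n q.2⟫ ^ 2 - c * ⟪n q.1, e⟫ ^ 2 - c * ⟪n q.2, e⟫ ^ 2 + c ^ 2
      = ∑ i, ∑ j, G i j q.1 * G i j q.2 := by
    intro q
    have h1 : ∀ u v w z : E, ∑ i, ∑ j, (⟪u, b i⟫ * ⟪v, b j⟫) * (⟪w, b i⟫ * ⟪z, b j⟫)
        = ⟪u, w⟫ * ⟪v, z⟫ := by
      intro u v w z
      rw [← hin u w, ← hin v z, Finset.sum_mul]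
      refine Finset.sum_congr rfl fun i _ => ?_
      rw [Finset.mul_sum]
      exact Finset.sum_congr rfl fun j _ => by ring
    have h2 : ∀ i j, G i j q.1 * G i j q.2
        = (⟪n q.1, b i⟫ * ⟪n q.1, b j⟫) * (⟪n q.2, b i⟫ * ⟪n q.2, b j⟫)
          - c * ((⟪n q.1, b i⟫ * ⟪n q.1, b j⟫) * (⟪e, b i⟫ * ⟪e, b j⟫))
          - c * ((⟪n q.2, b i⟫ * ⟪n q.2, b j⟫) * (⟪e, b i⟫ * ⟪e, b j⟫))
          + c ^ 2 * ((⟪e, b i⟫ * ⟪e, b j⟫) * (⟪e, b i⟫ * ⟪e, b j⟫)) := by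
      intro i j
      simp only [hG]
      ring
    simp only [h2, Finset.sum_add_distrib, Finset.sum_sub_distrib, ← Finset.mul_sum]
    rw [h1, h1, h1, h1, real_inner_self_eq_norm_sq, he]
    ring
  simp only [e1]
  have e2 : EE (μ.prod μ) (fun q => ⟪p q.1, p q.2⟫) m
      (fun q => ∑ i, ∑ j, G i j q.1 * G i j q.2) φ
      = ∑ i, ∑ j, EE (μ.prod μ) (fun q => ⟪p q.1, p q.2⟫) m
        (fun q => G i j q.1 * G i j q.2) φ := by
    have hs : Measurable (fun q : X × X => ⟪p q.1, p q.2⟫) :=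
      (h.mp.comp measurable_fst).inner (h.mp.comp measurable_snd)
    have hi : ∀ i j, Integrable (fun q : X × X => G i j q.1 * G i j q.2 *
        DD m φ ⟪p q.1, p q.2⟫) (μ.prod μ) := fun i j =>
      int_EE (g := fun q : X × X => G i j q.1 * G i j q.2) hs
        (((hmG i j).comp measurable_fst).mul ((hmG i j).comp measurable_snd))
        (fun q => h.abs_pp q.1 q.2) (C := (1 + |c|) * (1 + |c|)) (fun q => by
          rw [abs_mul]
          exact mul_le_mul (hCG i j _) (hCG i j _) (abs_nonneg _) (by positivity)) hφ' m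
    unfold EE
    simp only [Finset.sum_mul]
    rw [integral_finsetSum _ fun i _ => integrable_finsetSum _ fun j _ => hi i j]
    exact Finset.sum_congr rfl fun i _ => integral_finsetSum _ fun j _ => hi i j
  rw [e2]
  exact Finset.sum_nonneg fun i _ => Finset.sum_nonneg fun j _ =>
    pd_ker h.mp h.np hm (hmG i j) (hCG i j) hφ

end

end Vale.Agent.P224.FV
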