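import Vale.Agent.P224.GG.Dbl
import Vale.Agent.P224.GG.PD

namespace Vale.Agent.P224.FV

open MeasureTheory Set Real Filter
open scoped RealInnerProductSpace Topology

set_option linter.unusedSectionVars false

section

variable {X : Type*} [MeasurableSpace X] {E : Type*} [NormedAddCommGroup E]
  [InnerProductSpace ℝ E] [FiniteDimensional ℝ E] [MeasurableSpace E] [BorelSpace E]
  {μ : Measure X} [IsFiniteMeasure μ] {m : ℕ} {p n : X → E}

lemma cf_pow' (k : ℕ) (φ s : ℝ) : cf φ s ^ k = cos φ ^ k * DD k φ s := by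
  unfold cf DD
  rw [div_pow, div_eq_mul_inv]

lemma V1_eq' (z : X) (k : ℕ) (φ : ℝ) :
    V1 μ k p z φ = cos φ ^ k * E1 μ p z k (fun _ => 1) φ := by
  unfold V1 E1 EE
  rw [← integral_const_mul]
  refine integral_congr_ae ?_
  filter_upwards with x
  rw [cf_pow']; ring

lemma JJ_eq' (k : ℕ) (φ : ℝ) : JJ μ k p φ = cos φ ^ k * E2 μ p k (fun _ => 1) φ := by
  unfold JJ E2 EE
  rw [← integral_const_mul]
  refine integral_congr_ae ?_
  filter_upwards with x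
  rw [cf_pow']; ring

/-- the conformal volume is at most the volume -/
lemma TwoPt.V1_le' (h : TwoPt μ m p n) (z : X) {φ : ℝ} (hφ : φ ∈ Ico 0 (π / 2)) :
    V1 μ m p z φ ≤ μ.real univ := by
  have hpi := pi_pos
  have hanti : AntitoneOn (V1 μ m p z) (Ico 0 (π / 2)) := by
    have hder : ∀ ψ ∈ Ico 0 (π / 2), HasDerivAt (V1 μ m p z) _ ψ :=
      fun ψ hψ => h.hasDerivAt_V1 z ⟨by linarith [hψ.1], hψ.2⟩
    refine antitoneOn_of_deriv_nonpos (convex_Ico 0 (π / 2)) ?_ ?_ ?_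
    · exact fun ψ hψ => (hder ψ hψ).continuousAt.continuousWithinAt
    · intro ψ hψ
      rw [interior_Ico] at hψ
      exact (hder ψ ⟨hψ.1.le, hψ.2⟩).differentiableAt.differentiableWithinAt
    · intro ψ hψ
      rw [interior_Ico] at hψ
      rw [(hder ψ ⟨hψ.1.le, hψ.2⟩).deriv]
      have h1 : 0 ≤ sin ψ := sin_nonneg_of_nonneg_of_le_pi hψ.1.le (by linarith [hψ.2])
      have h2 : 0 ≤ cos ψ := cos_nonneg_of_neg_pi_div_two_le_of_le (by linarith [hψ.1]) hψ.2.le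
      have h3 : 0 ≤ ∫ x, ⟪n x, p z⟫ ^ 2 / (1 - ⟪p x, p z⟫ * sin ψ) ^ (m + 1) ∂μ := by
        apply integral_nonneg
        intro x
        have := den_pos (φ := ψ) ⟨by linarith [hψ.1], hψ.2⟩ (h.abs_pp x z)
        positivity
      have : 0 ≤ sin ψ * ((m : ℝ) * cos ψ ^ (m - 1) *
          ∫ x, ⟪n x, p z⟫ ^ 2 / (1 - ⟪p x, p z⟫ * sin ψ) ^ (m + 1) ∂μ) := by positivity
      linarith
  have h1 := hanti ⟨le_rfl, by positivity⟩ hφ hφ.1
  have h2 : V1 μ m p z 0 = μ.real univ := by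
    unfold V1 cf
    simp
  rwa [h2] at h1

/-- weighted two point integrals, weight at the second point -/
lemma TwoPt.E2_snd (h : TwoPt μ m p n) {w : X → ℝ} (hw : Measurable w) {C : ℝ}
    (hC : ∀ x, |w x| ≤ C) {φ : ℝ} (hφ : φ ∈ Ioo (-(π / 2)) (π / 2)) :
    Integrable (fun z => w z * V1 μ m p z φ) μ ∧
    cos φ ^ m * E2 μ p m (fun q => w q.2) φ = ∫ z, w z * V1 μ m p z φ ∂μ := by
  obtain ⟨i1, e1⟩ := E2_prod (μ := μ) h.toPts (g := fun q => w q.2) (hw.comp measurable_snd)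
    (fun q => hC q.2) m hφ
  have e2 : ∀ z, cos φ ^ m * E1 μ p z m (fun x => w (x, z).2) φ = w z * V1 μ m p z φ := by
    intro z
    rw [V1_eq']
    have : E1 μ p z m (fun x => w (x, z).2) φ = w z * E1 μ p z m (fun _ => 1) φ := by
      unfold E1
      rw [← EE_smul]
      simp only [mul_one]
    rw [this]; ring
  constructor
  · refine (i1.const_mul (cos φ ^ m)).congr ?_
    filter_upwards with z
    exact e2 z
  · rw [e1, ← integral_const_mul]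
    refine integral_congr_ae ?_
    filter_upwards with z
    exact e2 z

lemma E2_fst (w : X → ℝ) (k : ℕ) (φ : ℝ) :
    E2 μ p k (fun q => w q.1) φ = E2 μ p k (fun q => w q.2) φ := by
  rw [← E2_swap (fun q => w q.2)]
  simp only [Prod.snd_swap]

/-- bound for the weighted two point integral -/
lemma TwoPt.E2_snd_le (h : TwoPt μ m p n) {w : X → ℝ} (hw : Measurable w) {C : ℝ}
    (hC : ∀ x, |w x| ≤ C) (hw0 : ∀ x, 0 ≤ w x) {φ : ℝ} (hφ : φ ∈ Ico 0 (π / 2)) :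
    cos φ ^ m * E2 μ p m (fun q => w q.2) φ ≤ μ.real univ * ∫ z, w z ∂μ := by
  obtain ⟨i1, e1⟩ := h.E2_snd hw hC (φ := φ) ⟨by linarith [hφ.1, pi_pos], hφ.2⟩
  rw [e1, ← integral_const_mul]
  refine integral_mono i1 ((int_bdd hw hC).const_mul _) fun z => ?_
  simp only
  rw [mul_comm]
  exact mul_le_mul_of_nonneg_right (h.V1_le' z hφ) (hw0 z)

lemma TwoPt.JJ_le (h : TwoPt μ m p n) {φ : ℝ} (hφ : φ ∈ Ico 0 (π / 2)) :
    JJ μ m p φ ≤ μ.real univ ^ 2 := by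
  have h1 := h.E2_snd_le (w := fun _ => 1) measurable_const abs_one_le (fun _ => zero_le_one) hφ
  rw [integral_const, smul_eq_mul, mul_one] at h1
  rw [JJ_eq']
  linarith

/-- the energy is controlled by the tilt -/
lemma Sys.T_le (h : Sys μ m p n) {φ : ℝ} (hφ : φ ∈ Ioo 0 (π / 2)) :
    (1 - sin φ) * (((m : ℝ) + 1) * E2 μ p (m + 1) (fun q => ⟪n q.1, p q.2⟫ ^ 2) φ)
      ≤ E2 μ p m (fun q => 1 - ⟪n q.1, n q.2⟫ ^ 2) φ := by
  obtain ⟨hs, hc, hI⟩ := trig_pos hφ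
  have h1 := h.E2_idh hφ
  have hs1 := (abs_lt.mp (abs_sin_lt_one hI)).2
  have hms := h.toPts.ms
  have hmt := (meas_np h.toPts).pow_const 2
  have hmh := (meas_pn h.toPts).pow_const 2
  have hmf := ((meas_pn h.toPts).mul (meas_np h.toPts)).mul (meas_nn h.toPts)
  have hbs : ∀ q : X × X, |⟪p q.1, p q.2⟫| ≤ 1 := fun q => h.abs_pp q.1 q.2
  have hbt : ∀ q : X × X, |⟪n q.1, p q.2⟫ ^ 2| ≤ 1 := fun q =>
    abs_sq_le (h.toPts.abs_le (h.nn _) (h.np _))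
  have hbh : ∀ q : X × X, |⟪p q.1, n q.2⟫ ^ 2| ≤ 1 := fun q =>
    abs_sq_le (h.toPts.abs_le (h.np _) (h.nn _))
  have it := int_EE (μ := μ.prod μ) (g := fun q : X × X => ⟪n q.1, p q.2⟫ ^ 2) hms hmt hbs hbt hI
    (m + 1)
  have it0 := int_EE (μ := μ.prod μ) (g := fun q : X × X => ⟪n q.1, p q.2⟫ ^ 2) hms hmt hbs hbt hI
    m
  have ih := int_EE (μ := μ.prod μ) (g := fun q : X × X => ⟪p q.1, n q.2⟫ ^ 2) hms hmh hbs hbh hI
    (m + 1)
  have iff' := int_EE (μ := μ.prod μ)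
    (g := fun q : X × X => ⟪p q.1, n q.2⟫ * ⟪n q.1, p q.2⟫ * ⟪n q.1, n q.2⟫) hms hmf hbs
    (abs_htf h.toPts) hI (m + 1)
  -- first
  have h2 : (1 - sin φ) * E2 μ p (m + 1) (fun q => ⟪n q.1, p q.2⟫ ^ 2) φ
      ≤ E2 μ p m (fun q => ⟪n q.1, p q.2⟫ ^ 2) φ := by
    unfold E2 EE
    rw [← integral_const_mul]
    refine integral_mono (it.const_mul _) it0 fun q => ?_
    simp only
    have hd := den_pos hI (hbs q)
    rw [DD_succ (k := m) hd.ne']
    have h3 : 1 - sin φ ≤ 1 - ⟪p q.1, p q.2⟫ * sin φ := by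
      have := mul_le_mul_of_nonneg_right (abs_le.mp (hbs q)).2 hs.le
      linarith
    have h4 : 0 ≤ ⟪n q.1, p q.2⟫ ^ 2 * DD (m + 1) φ ⟪p q.1, p q.2⟫ :=
      mul_nonneg (sq_nonneg _) (DD_pos hd).le
    have h5 := mul_le_mul_of_nonneg_right h3 h4
    linarith
  -- second
  have h3 : 0 ≤ 1 * E2 μ p (m + 1) (fun q => ⟪p q.1, n q.2⟫ ^ 2) φ
      + 1 * E2 μ p (m + 1) (fun q => ⟪n q.1, p q.2⟫ ^ 2) φ
      + 2 * E2 μ p (m + 1)
        (fun q => ⟪p q.1, n q.2⟫ * ⟪n q.1, p q.2⟫ * ⟪n q.1, n q.2⟫) φ := by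
    unfold E2 EE
    rw [← lin3 ih it iff']
    refine integral_nonneg fun q => ?_
    have hd := (DD_pos (k := m + 1) (den_pos hI (hbs q))).le
    have hf := abs_le.mp (h.toPts.abs_le (h.nn q.1) (h.nn q.2))
    have h4 : 0 ≤ ⟪p q.1, n q.2⟫ ^ 2 + ⟪n q.1, p q.2⟫ ^ 2
        + 2 * (⟪p q.1, n q.2⟫ * ⟪n q.1, p q.2⟫ * ⟪n q.1, n q.2⟫) := by
      set u := ⟪p q.1, n q.2⟫
      set v := ⟪n q.1, p q.2⟫
      set f := ⟪n q.1, n q.2⟫
      have h5 : 0 ≤ (1 + f) * (u + v) ^ 2 + (1 - f) * (u - v) ^ 2 :=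
        add_nonneg (mul_nonneg (by linarith [hf.1]) (sq_nonneg _))
          (mul_nonneg (by linarith [hf.2]) (sq_nonneg _))
      nlinarith
    have h6 := mul_nonneg h4 hd
    simp only [Pi.zero_apply]
    linarith
  rw [E2_pn] at h3
  have h4 := mul_nonneg (mul_nonneg (Nat.cast_nonneg (α := ℝ) m) hs.le) h3
  set T := E2 μ p (m + 1) (fun q => ⟪n q.1, p q.2⟫ ^ 2) φ
  set Z := E2 μ p (m + 1)
        (fun q => ⟪p q.1, n q.2⟫ * ⟪n q.1, p q.2⟫ * ⟪n q.1, n q.2⟫) φ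
  have h5 : (m : ℝ) * sin φ * (1 * T + 1 * T + 2 * Z) = 2 * (m * sin φ * T) + 2 * (m * sin φ * Z) := by
    ring
  rw [h5] at h4
  linarith

end

end Vale.Agent.P224.FV
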