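import Vale.Agent.P224.GG.Dbl2
import Vale.Agent.P224.FV.JLow

namespace Vale.Agent.P224.FV

open MeasureTheory Set Real Filter
open scoped RealInnerProductSpace Topology

set_option linter.unusedSectionVars false

section

variable {X : Type*} [MeasurableSpace X] {E : Type*} [NormedAddCommGroup E]
  [InnerProductSpace ℝ E] [FiniteDimensional ℝ E] [MeasurableSpace E] [BorelSpace E]
  {μ : Measure X} [IsFiniteMeasure μ] {m : ℕ} {p n : X → E}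

/-- the tilt is controlled by the direction e -/
lemma Sys.W_le (h : Sys μ m p n) (hm : 1 ≤ m) {e : E} (he : ‖e‖ = 1) {κ : ℝ}
    (hκ1 : κ ≤ 1) (hκ : ∫ x, ⟪n x, e⟫ ^ 2 ∂μ = μ.real univ * (1 - κ))
    {φ : ℝ} (hφ : φ ∈ Ioo 0 (π / 2)) :
    cos φ ^ m * E2 μ p m (fun q => 1 - ⟪n q.1, n q.2⟫ ^ 2) φ
      ≤ μ.real univ ^ 2 * (2 * κ - κ ^ 2) := by
  obtain ⟨hs, hc, hI⟩ := trig_pos hφ
  have hφ' : φ ∈ Ico 0 (π / 2) := ⟨hφ.1.le, hφ.2⟩
  set c := 1 - κ with hcdef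
  have hc0 : 0 ≤ c := by rw [hcdef]; linarith
  have h1 := pd_two (μ := μ) h.toPts hm he c hφ'
  have hms := h.toPts.ms
  have hne : Measurable (fun x => ⟪n x, e⟫ ^ 2) := (h.mn.inner measurable_const).pow_const 2
  have hm1 : Measurable (fun q : X × X => ⟪n q.1, e⟫ ^ 2) := hne.comp measurable_fst
  have hm2 : Measurable (fun q : X × X => ⟪n q.2, e⟫ ^ 2) := hne.comp measurable_snd
  have hbs : ∀ q : X × X, |⟪p q.1, p q.2⟫| ≤ 1 := fun q => h.abs_pp q.1 q.2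
  have hb1 : ∀ x, |⟪n x, e⟫ ^ 2| ≤ 1 := fun x => abs_sq_le (h.toPts.abs_le (h.nn _) he)
  have i1 := int_EE (μ := μ.prod μ) (g := fun q : X × X => ⟪n q.1, n q.2⟫ ^ 2) hms
    ((meas_nn h.toPts).pow_const 2) hbs
    (fun q => abs_sq_le (h.toPts.abs_le (h.nn _) (h.nn _))) hI m
  have i2 := int_EE (μ := μ.prod μ) (g := fun q : X × X => ⟪n q.1, e⟫ ^ 2) hms hm1 hbs
    (fun q => hb1 q.1) hI m
  have i3 := int_EE (μ := μ.prod μ) (g := fun q : X × X => ⟪n q.2, e⟫ ^ 2) hms hm2 hbs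
    (fun q => hb1 q.2) hI m
  have i4 := int_EE (μ := μ.prod μ) (g := fun _ : X × X => (1 : ℝ)) hms measurable_const hbs
    abs_one_le hI m
  have e1 : EE (μ.prod μ) (fun q => ⟪p q.1, p q.2⟫) m
      (fun q => ⟪n q.1, n q.2⟫ ^ 2 - c * ⟪n q.1, e⟫ ^ 2 - c * ⟪n q.2, e⟫ ^ 2 + c ^ 2) φ
      = 1 * E2 μ p m (fun q => ⟪n q.1, n q.2⟫ ^ 2) φ
        + (-c) * E2 μ p m (fun q => ⟪n q.1, e⟫ ^ 2) φ
        + (-c) * E2 μ p m (fun q => ⟪n q.2, e⟫ ^ 2) φ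
        + c ^ 2 * E2 μ p m (fun _ => 1) φ := by
    unfold E2 EE
    rw [← lin4 i1 i2 i3 i4]
    refine integral_congr_ae ?_
    filter_upwards with q
    ring
  rw [e1, E2_fst (fun x => ⟪n x, e⟫ ^ 2)] at h1
  have e2 : E2 μ p m (fun q => 1 - ⟪n q.1, n q.2⟫ ^ 2) φ
      = 1 * E2 μ p m (fun _ => 1) φ + (-1) * E2 μ p m (fun q => ⟪n q.1, n q.2⟫ ^ 2) φ := by
    unfold E2 EE
    rw [← lin2 i4 i1]
    refine integral_congr_ae ?_
    filter_upwards with q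
    ring
  have e3 : E2 μ p m (fun q => 1 - ⟪n q.2, e⟫ ^ 2) φ
      = 1 * E2 μ p m (fun _ => 1) φ + (-1) * E2 μ p m (fun q => ⟪n q.2, e⟫ ^ 2) φ := by
    unfold E2 EE
    rw [← lin2 i4 i3]
    refine integral_congr_ae ?_
    filter_upwards with q
    ring
  have hb : ∀ x, |1 - ⟪n x, e⟫ ^ 2| ≤ 1 := by
    intro x
    have h2 := (abs_le.mp (hb1 x)).2
    have h3 := sq_nonneg ⟪n x, e⟫
    rw [abs_le]; constructor <;> linarith
  have h2 := h.E2_snd_le (w := fun x => 1 - ⟪n x, e⟫ ^ 2) (hne.const_sub 1) hb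
    (fun x => by have := (abs_le.mp (hb1 x)).2; linarith) hφ'
  rw [e3, integral_sub (integrable_const _) (int_bdd hne hb1), hκ, integral_const, smul_eq_mul]
    at h2
  have h3 := h.JJ_le hφ'
  rw [JJ_eq'] at h3
  rw [e2]
  set A := E2 μ p m (fun _ => 1) φ
  set B := E2 μ p m (fun q => ⟪n q.1, n q.2⟫ ^ 2) φ
  set D := E2 μ p m (fun q => ⟪n q.2, e⟫ ^ 2) φ
  set V := μ.real univ
  have hcm : 0 ≤ cos φ ^ m := by positivity
  have h4 : cos φ ^ m * (1 * A + -1 * B) ≤ cos φ ^ m * ((1 - c) ^ 2 * A + 2 * c * (1 * A + -1 * D)) := by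
    apply mul_le_mul_of_nonneg_left _ hcm
    linarith
  have h5 : cos φ ^ m * ((1 - c) ^ 2 * A + 2 * c * (1 * A + -1 * D))
      = (1 - c) ^ 2 * (cos φ ^ m * A) + 2 * c * (cos φ ^ m * (1 * A + -1 * D)) := by ring
  have h6 : (1 - c) ^ 2 * (cos φ ^ m * A) ≤ (1 - c) ^ 2 * V ^ 2 :=
    mul_le_mul_of_nonneg_left h3 (sq_nonneg _)
  have h7 : 2 * c * (cos φ ^ m * (1 * A + -1 * D)) ≤ 2 * c * (V * (V * 1 - V * (1 - κ))) :=
    mul_le_mul_of_nonneg_left h2 (by positivity)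
  have h8 : (1 - c) ^ 2 * V ^ 2 + 2 * c * (V * (V * 1 - V * (1 - κ))) = V ^ 2 * (2 * κ - κ ^ 2) := by
    rw [hcdef]; ring
  linarith

/-- the polynomial in the lower bound -/
noncomputable def gh (γ r : ℝ) : ℝ := r ^ 2 / 2 + r ^ 3 / 3 + γ * r ^ 4 / 4

lemma hasDerivAt_gh (γ φ : ℝ) : HasDerivAt (fun φ => gh γ (sin φ))
    (sin φ * (cos φ * (1 + sin φ + γ * sin φ ^ 2))) φ := by
  unfold gh
  have h := Real.hasDerivAt_sin φ
  refine ((((h.fun_pow 2).div_const 2).fun_add ((h.fun_pow 3).div_const 3)).fun_add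
    (((h.fun_pow 4).const_mul γ).div_const 4)).congr_deriv ?_
  simp only [Nat.add_one_sub_one, pow_one, show 4 - 1 = 3 by norm_num, show 3 - 1 = 2 by norm_num]
  push_cast
  ring

/-- the derivative of the two point conformal volume -/
lemma TwoPt.dJJ (h : TwoPt μ m p n) (hm : 1 ≤ m) {φ : ℝ} (hφ : φ ∈ Ioo 0 (π / 2)) :
    HasDerivAt (JJ μ m p) (-(sin φ * (m * (cos φ ^ m *
      E2 μ p (m + 1) (fun q => ⟪n q.1, p q.2⟫ ^ 2) φ) / cos φ))) φ := by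
  obtain ⟨hs, hc, hI⟩ := trig_pos hφ
  have h1 := dcosEE (μ := μ.prod μ) (m := m) h.toPts.ms (fun q => h.abs_pp q.1 q.2) hm
    (g := fun _ => 1) measurable_const abs_one_le hφ
  have e : JJ μ m p = fun φ => cos φ ^ m * EE (μ.prod μ) (fun q => ⟪p q.1, p q.2⟫) m
      (fun _ => 1) φ := by
    funext ψ
    exact JJ_eq' m ψ
  rw [e]
  refine h1.congr_deriv ?_
  have h2 := h.E2_one hφ
  unfold E2 at h2 ⊢
  rw [h2]
  field_simp
  ring

/-- lower bound for the two point conformal volume -/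
lemma Sys.J_ge (h : Sys μ m p n) (hm : 1 ≤ m) {e : E} (he : ‖e‖ = 1) {κ : ℝ} (hκ0 : 0 ≤ κ)
    (hκ1 : κ ≤ 1) (hκ : ∫ x, ⟪n x, e⟫ ^ 2 ∂μ = μ.real univ * (1 - κ)) {γ φ₁ : ℝ}
    (h1 : φ₁ ∈ Ioo 0 (π / 2)) (hγ0 : 0 ≤ γ)
    (hγ : ∀ r, 0 ≤ r → r ≤ sin φ₁ → 1 ≤ (1 + r + γ * r ^ 2) * ((1 - r ^ 2) * (1 - r)))
    {φ : ℝ} (hφ : φ ∈ Icc 0 φ₁) :
    μ.real univ ^ 2 * (1 - m / (m + 1) * (2 * κ - κ ^ 2) * gh γ (sin φ)) ≤ JJ μ m p φ := by
  obtain ⟨a, b, hab⟩ := h.main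
  have hm0 : (0 : ℝ) < m := by exact_mod_cast hm
  set V := μ.real univ with hV
  set c := (m : ℝ) / (m + 1) * (2 * κ - κ ^ 2) with hc
  have hk : 0 ≤ 2 * κ - κ ^ 2 := by nlinarith
  have hc0 : 0 ≤ c := by rw [hc]; positivity
  have hsub : ∀ ψ ∈ Icc 0 φ₁, ψ ∈ Ioo (-(π / 2)) (π / 2) := fun ψ hψ =>
    ⟨by linarith [hψ.1, pi_pos], by linarith [hψ.2, h1.2]⟩
  have hmono : MonotoneOn (fun ψ => JJ μ m p ψ + V ^ 2 * c * gh γ (sin ψ)) (Icc 0 φ₁) := by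
    refine monotoneOn_of_deriv_nonneg (convex_Icc 0 φ₁) ?_ ?_ ?_
    · exact fun ψ hψ => ((hab ψ (hsub ψ hψ)).1.continuousAt.add
        ((hasDerivAt_gh γ ψ).continuousAt.const_mul _)).continuousWithinAt
    · intro ψ hψ
      rw [interior_Icc] at hψ
      exact ((hab ψ (hsub ψ ⟨hψ.1.le, hψ.2.le⟩)).1.differentiableAt.add
        ((hasDerivAt_gh γ ψ).differentiableAt.const_mul _)).differentiableWithinAt
    · intro ψ hψ
      rw [interior_Icc] at hψ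
      have hψ' : ψ ∈ Ioo 0 (π / 2) := ⟨hψ.1, hψ.2.trans h1.2⟩
      obtain ⟨hs, hcs, hI⟩ := trig_pos hψ'
      rw [((h.dJJ hm hψ').fun_add ((hasDerivAt_gh γ ψ).const_mul (V ^ 2 * c))).deriv]
      have h2 := h.T_le hψ'
      have h3 := h.W_le hm he hκ1 hκ hψ'
      set T := E2 μ p (m + 1) (fun q => ⟪n q.1, p q.2⟫ ^ 2) ψ with hT
      have hcm : 0 < cos ψ ^ m := by positivity
      have h4 : (1 - sin ψ) * (((m : ℝ) + 1) * (cos ψ ^ m * T)) ≤ V ^ 2 * (2 * κ - κ ^ 2) := by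
        calc (1 - sin ψ) * (((m : ℝ) + 1) * (cos ψ ^ m * T))
            = cos ψ ^ m * ((1 - sin ψ) * (((m : ℝ) + 1) * T)) := by ring
          _ ≤ cos ψ ^ m * E2 μ p m (fun q => 1 - ⟪n q.1, n q.2⟫ ^ 2) ψ :=
              mul_le_mul_of_nonneg_left h2 hcm.le
          _ ≤ _ := h3
      have h5 : (1 - sin ψ) * (m * (cos ψ ^ m * T)) ≤ V ^ 2 * c := by
        have h6 := mul_le_mul_of_nonneg_left h4 (show 0 ≤ (m : ℝ) / (m + 1) by positivity)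
        calc (1 - sin ψ) * (m * (cos ψ ^ m * T))
            = (m : ℝ) / (m + 1) * ((1 - sin ψ) * (((m : ℝ) + 1) * (cos ψ ^ m * T))) := by
              field_simp
          _ ≤ (m : ℝ) / (m + 1) * (V ^ 2 * (2 * κ - κ ^ 2)) := h6
          _ = V ^ 2 * c := by rw [hc]; ring
      have hsle : sin ψ ≤ sin φ₁ := sin_le_sin_of_le_of_le_pi_div_two (by linarith [hψ.1, pi_pos])
        h1.2.le hψ.2.le
      have h7 := hγ (sin ψ) hs.le hsle
      have hS : 1 - sin ψ ^ 2 = cos ψ ^ 2 := by have := sin_sq_add_cos_sq ψ; linarith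
      rw [hS] at h7
      have hT0 : 0 ≤ T := EE_nonneg (μ := μ.prod μ) (s := fun q : X × X => ⟪p q.1, p q.2⟫)
        (fun q => h.abs_pp q.1 q.2) (fun q => sq_nonneg ⟪n q.1, p q.2⟫) (m + 1) hI
      have hmT : 0 ≤ (m : ℝ) * (cos ψ ^ m * T) := by positivity
      have h8 : (m : ℝ) * (cos ψ ^ m * T) ≤ (1 + sin ψ + γ * sin ψ ^ 2) * cos ψ ^ 2 * (V ^ 2 * c) := by
        have h9 := mul_le_mul_of_nonneg_right h7 hmT
        have h10 : 0 ≤ (1 + sin ψ + γ * sin ψ ^ 2) * cos ψ ^ 2 := by positivity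
        have h11 := mul_le_mul_of_nonneg_left h5 h10
        calc (m : ℝ) * (cos ψ ^ m * T) = 1 * (m * (cos ψ ^ m * T)) := by ring
          _ ≤ (1 + sin ψ + γ * sin ψ ^ 2) * (cos ψ ^ 2 * (1 - sin ψ)) *
              (m * (cos ψ ^ m * T)) := h9
          _ = (1 + sin ψ + γ * sin ψ ^ 2) * cos ψ ^ 2 * ((1 - sin ψ) * (m * (cos ψ ^ m * T))) := by
              ring
          _ ≤ _ := h11
      have h12 : (m : ℝ) * (cos ψ ^ m * T) / cos ψ ≤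
          (1 + sin ψ + γ * sin ψ ^ 2) * cos ψ * (V ^ 2 * c) := by
        rw [div_le_iff₀ hcs]
        linarith
      have h13 := mul_le_mul_of_nonneg_left h12 hs.le
      linarith
  have h2 := hmono (left_mem_Icc.mpr h1.1.le) hφ hφ.1
  simp only [sin_zero] at h2
  rw [JJ_zero] at h2
  have h3 : gh γ 0 = 0 := by unfold gh; norm_num
  rw [h3] at h2
  linarith

end

end Vale.Agent.P224.FV
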