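import Vale.Agent.P224.GG.Base
import Vale.Agent.P224.FV.TwoPoint

namespace Vale.Agent.P224.FV

open MeasureTheory Set Real Filter
open scoped RealInnerProductSpace Topology

set_option linter.unusedSectionVars false

section

variable {X : Type*} [MeasurableSpace X] {E : Type*} [NormedAddCommGroup E]
  [InnerProductSpace ℝ E] [FiniteDimensional ℝ E] [MeasurableSpace E] [BorelSpace E]
  {μ : Measure X} [IsFiniteMeasure μ] {m : ℕ} {p n : X → E}

/-- the top eigenvector of the second moment of the normal -/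
lemma exists_top [Nontrivial E] (hn : Measurable n) (hn1 : ∀ x, ‖n x‖ = 1) :
    ∃ e : E, ‖e‖ = 1 ∧ (∀ b : E, ∫ x, ⟪n x, b⟫ ^ 2 ∂μ ≤ (∫ x, ⟪n x, e⟫ ^ 2 ∂μ) * ‖b‖ ^ 2) ∧
      ∀ b : E, ∫ x, ⟪n x, e⟫ * ⟪n x, b⟫ ∂μ = (∫ x, ⟪n x, e⟫ ^ 2 ∂μ) * ⟪e, b⟫ := by
  have hmb : ∀ b : E, Measurable (fun x => ⟪n x, b⟫) := fun b => hn.inner measurable_const
  have hbb : ∀ (b : E) x, |⟪n x, b⟫| ≤ ‖b‖ := by
    intro b x
    have := abs_real_inner_le_norm (n x) b
    rwa [hn1, one_mul] at this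
  have hint : ∀ a b : E, Integrable (fun x => ⟪n x, a⟫ * ⟪n x, b⟫) μ := fun a b =>
    int_bdd (g := fun x => ⟪n x, a⟫ * ⟪n x, b⟫) (C := ‖a‖ * ‖b‖) ((hmb a).mul (hmb b))
      (fun x => by
        rw [abs_mul]; exact mul_le_mul (hbb a x) (hbb b x) (abs_nonneg _) (norm_nonneg _))
  have hint2 : ∀ b : E, Integrable (fun x => ⟪n x, b⟫ ^ 2) μ := fun b => by
    have := hint b b
    simpa only [← sq] using this
  have hcont : ContinuousOn (fun b : E => ∫ x, ⟪n x, b⟫ ^ 2 ∂μ) (Metric.sphere (0 : E) 1) := by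
    refine continuousOn_of_dominated (bound := fun _ => (1 : ℝ))
      (fun b _ => ((hmb b).pow_const 2).aestronglyMeasurable) ?_ (integrable_const _) ?_
    · intro b hb
      filter_upwards with x
      rw [mem_sphere_zero_iff_norm] at hb
      have h1 := hbb b x
      rw [hb] at h1
      rw [Real.norm_eq_abs, abs_pow]
      exact pow_le_one₀ (abs_nonneg _) h1
    · filter_upwards with x
      exact ((continuous_const.inner continuous_id).pow 2).continuousOn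
  obtain ⟨u, hu⟩ := exists_ne (0 : E)
  have hne : (Metric.sphere (0 : E) 1).Nonempty := ⟨‖u‖⁻¹ • u, by
    rw [mem_sphere_zero_iff_norm, norm_smul, norm_inv, norm_norm]
    field_simp⟩
  obtain ⟨e, he, hmax⟩ := (isCompact_sphere (0 : E) 1).exists_isMaxOn hne hcont
  rw [mem_sphere_zero_iff_norm] at he
  set q := ∫ x, ⟪n x, e⟫ ^ 2 ∂μ with hq
  have hle : ∀ b : E, ∫ x, ⟪n x, b⟫ ^ 2 ∂μ ≤ q * ‖b‖ ^ 2 := by
    intro b
    rcases eq_or_ne b 0 with rfl | hb
    · simp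
    · have hb0 : 0 < ‖b‖ := norm_pos_iff.mpr hb
      have h1 : ∫ x, ⟪n x, ‖b‖⁻¹ • b⟫ ^ 2 ∂μ ≤ q := hmax (by
        rw [mem_sphere_zero_iff_norm, norm_smul, norm_inv, norm_norm]
        field_simp)
      have e1 : ∀ x, ⟪n x, ‖b‖⁻¹ • b⟫ ^ 2 = (‖b‖⁻¹) ^ 2 * ⟪n x, b⟫ ^ 2 := by
        intro x
        rw [real_inner_smul_right]; ring
      simp only [e1] at h1
      rw [integral_const_mul] at h1
      have h2 := mul_le_mul_of_nonneg_left h1 (sq_nonneg ‖b‖)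
      have e2 : ‖b‖ ^ 2 * ((‖b‖⁻¹) ^ 2 * ∫ x, ⟪n x, b⟫ ^ 2 ∂μ) = ∫ x, ⟪n x, b⟫ ^ 2 ∂μ := by
        field_simp
      rw [e2] at h2
      linarith
  refine ⟨e, he, hle, fun b => ?_⟩
  set c := ∫ x, ⟪n x, e⟫ * ⟪n x, b⟫ ∂μ - q * ⟪e, b⟫ with hc
  set K := q * ‖b‖ ^ 2 - ∫ x, ⟪n x, b⟫ ^ 2 ∂μ with hK
  have hK0 : 0 ≤ K := by rw [hK]; linarith [hle b]
  have hall : ∀ ε : ℝ, 2 * ε * c ≤ ε ^ 2 * K := by
    intro ε
    have h1 := hle (e + ε • b)
    have e1 : ∀ x, ⟪n x, e + ε • b⟫ ^ 2 = 1 * ⟪n x, e⟫ ^ 2 + (2 * ε) * (⟪n x, e⟫ * ⟪n x, b⟫)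
        + ε ^ 2 * ⟪n x, b⟫ ^ 2 := by
      intro x
      rw [inner_add_right, real_inner_smul_right]; ring
    simp only [e1] at h1
    rw [lin3 (hint2 e) (hint e b) (hint2 b), norm_add_sq_real, he, real_inner_smul_right,
      norm_smul, mul_pow, Real.norm_eq_abs, sq_abs] at h1
    rw [hc, hK]
    linarith
  have h0 := hall (c / (K + 1))
  have h1 : 0 < K + 1 := by linarith
  have e1 : 2 * (c / (K + 1)) * c = 2 * c ^ 2 * (K + 1) / (K + 1) ^ 2 := by
    field_simp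
  have e2 : (c / (K + 1)) ^ 2 * K = c ^ 2 * K / (K + 1) ^ 2 := by
    field_simp
  rw [e1, e2, div_le_div_iff_of_pos_right (by positivity)] at h0
  have h2 : c ^ 2 ≤ 0 := by nlinarith [sq_nonneg c]
  have h3 : c = 0 := by
    have := sq_nonneg c
    exact pow_eq_zero_iff (two_ne_zero) |>.mp (le_antisymm h2 this)
  linarith

/-- the value at zero is the squared norm of the total normal -/
lemma BB_zero_eq (h : Pts p n) : BB μ m p n 0 = ‖∫ x, n x ∂μ‖ ^ 2 := by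
  have hni : Integrable n μ := Integrable.of_bound h.mn.aestronglyMeasurable 1
    (Eventually.of_forall fun x => (h.nn x).le)
  set w := ∫ x, n x ∂μ with hw
  have hwb : ∀ b : E, ∫ x, ⟪n x, b⟫ ∂μ = ⟪w, b⟫ := by
    intro b
    rw [hw, real_inner_comm, ← integral_inner hni]
    refine integral_congr_ae ?_
    filter_upwards with x
    rw [real_inner_comm]
  have i1 : Integrable (fun q : X × X => ⟪n q.1, n q.2⟫) (μ.prod μ) :=
    int_bdd (C := 1) ((h.mn.comp measurable_fst).inner (h.mn.comp measurable_snd))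
      (fun q => h.abs_nn q.1 q.2)
  have e2 : BB μ m p n 0 = ∫ q, ⟪n q.1, n q.2⟫ ∂(μ.prod μ) := by
    unfold BB cf
    simp
  rw [e2, integral_prod_symm _ i1]
  simp only [hwb]
  have e3 : ∀ z, ⟪w, n z⟫ = ⟪n z, w⟫ := fun z => real_inner_comm _ _
  simp only [e3]
  rw [hwb, real_inner_self_eq_norm_sq]

/-- the first moment of the normal is controlled by the top eigenvalue -/
lemma BB_zero_le (h : Pts p n) {q : ℝ} (hq0 : 0 ≤ q)
    (hq : ∀ b : E, ∫ x, ⟪n x, b⟫ ^ 2 ∂μ ≤ q * ‖b‖ ^ 2) :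
    BB μ m p n 0 ≤ μ.real univ * q := by
  have hni : Integrable n μ := Integrable.of_bound h.mn.aestronglyMeasurable 1
    (Eventually.of_forall fun x => (h.nn x).le)
  have e1 := BB_zero_eq (μ := μ) (m := m) h
  set w := ∫ x, n x ∂μ with hw
  have hwb : ∀ b : E, ∫ x, ⟪n x, b⟫ ∂μ = ⟪w, b⟫ := by
    intro b
    rw [hw, real_inner_comm, ← integral_inner hni]
    refine integral_congr_ae ?_
    filter_upwards with x
    rw [real_inner_comm]
  have hbb : ∀ (b : E) x, |⟪n x, b⟫| ≤ ‖b‖ := by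
    intro b x
    have := abs_real_inner_le_norm (n x) b
    rwa [h.nn, one_mul] at this
  rw [e1]
  set V := μ.real univ with hV
  have hV0 : 0 ≤ V := measureReal_nonneg
  have i1 : Integrable (fun x => ⟪n x, w⟫) μ := int_bdd (h.mn.inner measurable_const) (hbb w)
  have i2 : Integrable (fun x => ⟪n x, w⟫ ^ 2) μ :=
    int_bdd (C := ‖w‖ ^ 2) ((h.mn.inner measurable_const).pow_const 2) (fun x => by
      rw [abs_pow]; exact pow_le_pow_left₀ (abs_nonneg _) (hbb w x) 2)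
  have h1 : 0 ≤ ∫ x, (V * ⟪n x, w⟫ - ‖w‖ ^ 2) ^ 2 ∂μ := integral_nonneg fun x => sq_nonneg _
  have e4 : ∀ x, (V * ⟪n x, w⟫ - ‖w‖ ^ 2) ^ 2 = V ^ 2 * ⟪n x, w⟫ ^ 2
      + (-(2 * V * ‖w‖ ^ 2)) * ⟪n x, w⟫ + (‖w‖ ^ 2) ^ 2 * 1 := by intro x; ring
  simp only [e4] at h1
  rw [lin3 i2 i1 (integrable_const _), hwb, real_inner_self_eq_norm_sq, integral_const,
    smul_eq_mul, ← hV] at h1
  have h2 := hq w
  have h3 : V ^ 2 * ∫ x, ⟪n x, w⟫ ^ 2 ∂μ ≤ V ^ 2 * (q * ‖w‖ ^ 2) :=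
    mul_le_mul_of_nonneg_left h2 (sq_nonneg _)
  rcases hV0.eq_or_lt with hV1 | hV1
  · have h4 : w = 0 := by
      have h5 : μ = 0 := by
        have : μ univ = 0 := by
          have h6 : μ.real univ = 0 := by rw [← hV]; exact hV1.symm
          rw [measureReal_def, ENNReal.toReal_eq_zero_iff] at h6
          rcases h6 with h6 | h6
          · exact h6
          · exact absurd h6 (measure_ne_top μ _)
        exact Measure.measure_univ_eq_zero.mp this
      rw [hw, h5]; simp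
    rw [h4, ← hV1]; simp
  · rcases (sq_nonneg ‖w‖).eq_or_lt with hw1 | hw1
    · rw [← hw1]; positivity
    · have h4 : V * (‖w‖ ^ 2 * ‖w‖ ^ 2) ≤ V * ((V * q) * ‖w‖ ^ 2) := by nlinarith
      have h5 := le_of_mul_le_mul_left h4 hV1
      exact le_of_mul_le_mul_right h5 hw1

end

end Vale.Agent.P224.FV
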