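import Vale.Agent.P224.GG.Dbl
import Vale.Agent.P224.FV.Inst

namespace Vale.Agent.P224.FV

open MeasureTheory Set Real Filter
open scoped RealInnerProductSpace Topology ContDiff Manifold

set_option linter.unusedSectionVars false

section

variable {X : Type*} [MeasurableSpace X] {μ : Measure X} [IsFiniteMeasure μ]

lemma EE_s2 {s g : X → ℝ} (hs : Measurable s) (hg : Measurable g)
    (hs1 : ∀ x, |s x| ≤ 1) {C : ℝ} (hg1 : ∀ x, |g x| ≤ C) (k : ℕ) {φ : ℝ}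
    (hφ : φ ∈ Ioo (-(π / 2)) (π / 2)) :
    sin φ ^ 2 * EE μ s (k + 2) (fun x => g x * (1 - s x ^ 2)) φ =
      -(cos φ ^ 2 * EE μ s (k + 2) g φ) + 2 * EE μ s (k + 1) g φ - EE μ s k g φ := by
  unfold EE
  have i0 := int_EE (μ := μ) hs hg hs1 hg1 hφ k
  have i1 := int_EE (μ := μ) hs hg hs1 hg1 hφ (k + 1)
  have i2 := int_EE (μ := μ) hs hg hs1 hg1 hφ (k + 2)
  have e : ∀ x, sin φ ^ 2 * (g x * (1 - s x ^ 2) * DD (k + 2) φ (s x)) =
      -(cos φ ^ 2) * (g x * DD (k + 2) φ (s x)) + 2 * (g x * DD (k + 1) φ (s x))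
        + (-1) * (g x * DD k φ (s x)) := by
    intro x
    have hd := (den_pos hφ (hs1 x)).ne'
    rw [DD_succ (k := k) hd, DD_succ (k := k + 1) hd]
    have e2 : k + 1 + 1 = k + 2 := rfl
    rw [e2]
    have h4 : sin φ ^ 2 = 1 - cos φ ^ 2 := by have := sin_sq_add_cos_sq φ; linarith
    linear_combination (g x * DD (k + 2) φ (s x)) * h4
  rw [← integral_const_mul]
  simp only [e]
  rw [lin3 i2 i1 i0]
  ring

end

section

variable {V W M : Type*} [NormedAddCommGroup V] [InnerProductSpace ℝ V] [FiniteDimensional ℝ V]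
  [NormedAddCommGroup W] [InnerProductSpace ℝ W] [FiniteDimensional ℝ W]
  [TopologicalSpace M] [ChartedSpace V M]
  [MeasurableSpace V] [BorelSpace V] [MeasurableSpace M] [BorelSpace M]

lemma bdd_of_cont [CompactSpace M] {g : M → ℝ} (hg : Continuous g) : ∃ C, ∀ x, |g x| ≤ C := by
  obtain ⟨C, hC⟩ := (isCompact_univ (X := M)).exists_bound_of_continuousOn hg.continuousOn
  exact ⟨C, fun x => hC x (mem_univ x)⟩

lemma int_EEc [CompactSpace M] {F : M → W} (hF : SphImm V F) [IsFiniteMeasure (volM V F)] (z : M)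
    {g : M → ℝ} (hg : Continuous g) (k : ℕ) {φ : ℝ} (hφ : φ ∈ Ioo (-(π / 2)) (π / 2)) :
    Integrable (fun x => g x * DD k φ ⟪F x, F z⟫) (volM V F) :=
  integrable_of_cont _ (hg.mul (cont_DD hF z k hφ))

lemma smooth_DD {F : M → W} (hF : SphImm V F) (z : M) (k : ℕ) {φ : ℝ}
    (hφ : φ ∈ Ioo (-(π / 2)) (π / 2)) :
    ContMDiff 𝓘(ℝ, V) 𝓘(ℝ, ℝ) ∞ (fun x => DD k φ ⟪F x, F z⟫) :=
  smooth_comp (smooth_inner hF.smooth _)
    (fun x => contDiffAt_DD (den_pos hφ (abs_FF_le hF x z)).ne')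

lemma dl_DD [IsManifold 𝓘(ℝ, V) ∞ M] {F : M → W} (hF : SphImm V F) (z : M) (k : ℕ) {φ : ℝ}
    (hφ : φ ∈ Ioo (-(π / 2)) (π / 2)) (a : W) (p : M) :
    dl V F a (fun q => DD k φ ⟪F q, F z⟫) p =
      k * sin φ * DD (k + 1) φ ⟪F p, F z⟫ * ⟪dl V F a F p, F z⟫ := by
  rw [dl_comp a (smooth_inner hF.smooth (F z)) p
    (hasDerivAt_DD (den_pos hφ (abs_FF_le hF p z)).ne'), dl_inner a hF.smooth]

variable [MeasurableSpace W] [BorelSpace W]
  [IsManifold 𝓘(ℝ, V) ∞ M] [CompactSpace M] [T2Space M] {F : M → W} {N : M → W}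
  [IsFiniteMeasure (volM V F)]

/-- the kernel identity for a smooth function -/
lemma ker_g (hW : Module.finrank ℝ W = Module.finrank ℝ V + 2)
    (hF : SphImm V F) (hmin : ∀ x n, IsUnitNormal V F x n → meanCurv V F x n = 0)
    (hV : VolChart V F) (hNs : ContMDiff 𝓘(ℝ, V) 𝓘(ℝ, W) ∞ N)
    (hN : ∀ x, IsUnitNormal V F x (N x)) (z : M) {g : M → ℝ}
    (hg : ContMDiff 𝓘(ℝ, V) 𝓘(ℝ, ℝ) ∞ g) {φ : ℝ} (hφ : φ ∈ Ioo 0 (π / 2)) {m : ℕ}
    (hm : m = Module.finrank ℝ V) :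
    sin φ * (∫ p, dl V F (F z) g p * DD (m + 1) φ ⟪F p, F z⟫ ∂(volM V F))
      + ((m : ℝ) + 2) * E1 (volM V F) F z (m + 1) g φ
      - E1 (volM V F) F z m g φ = ((m : ℝ) + 1) * (cos φ ^ 2 * E1 (volM V F) F z (m + 2) g φ
        + sin φ ^ 2 * E1 (volM V F) F z (m + 2) (fun x => g x * ⟪N x, F z⟫ ^ 2) φ) := by
  obtain ⟨hs, hc, hI⟩ := trig_pos hφ
  have hcF : Continuous F := hF.smooth.continuous
  have hcN : Continuous N := hNs.continuous
  have cs : Continuous (fun x => ⟪F x, F z⟫) := hcF.inner continuous_const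
  have ct : Continuous (fun x => ⟪N x, F z⟫) := hcN.inner continuous_const
  have hs1 : ∀ x, |⟪F x, F z⟫| ≤ 1 := fun x => abs_FF_le hF x z
  obtain ⟨C, hC⟩ := bdd_of_cont hg.continuous
  have h1 := first_variation hW hF hmin hV (F z) (h := fun q => g q * DD (m + 1) φ ⟪F q, F z⟫)
    (hg.mul (smooth_DD hF z (m + 1) hI))
  have e1 : ∀ p, dl V F (F z) (fun q => g q * DD (m + 1) φ ⟪F q, F z⟫) p
      = 1 * (dl V F (F z) g p * DD (m + 1) φ ⟪F p, F z⟫)
        + (((m : ℝ) + 1) * sin φ) * (g p * (1 - ⟪F p, F z⟫ ^ 2) * DD (m + 2) φ ⟪F p, F z⟫)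
        + (-(((m : ℝ) + 1) * sin φ)) * (g p * ⟪N p, F z⟫ ^ 2 * DD (m + 2) φ ⟪F p, F z⟫) := by
    intro p
    rw [dl_mul (F z) hg (smooth_DD hF z (m + 1) hI), dl_DD hF z (m + 1) hI, dl_F hW hF hN]
    simp only [inner_sub_left, real_inner_smul_left, real_inner_self_eq_norm_sq, hF.unit]
    rw [real_inner_comm (F p) (F z), real_inner_comm (N p) (F z)]
    push_cast
    ring
  have e2 : ∀ p, ⟪F z, F p⟫ * (g p * DD (m + 1) φ ⟪F p, F z⟫)
      = g p * ⟪F p, F z⟫ * DD (m + 1) φ ⟪F p, F z⟫ := by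
    intro p
    rw [real_inner_comm (F p) (F z)]; ring
  simp only [e1, e2] at h1
  have i1 : Integrable (fun p => dl V F (F z) g p * DD (m + 1) φ ⟪F p, F z⟫) (volM V F) :=
    int_EEc hF z (continuous_dl hF _ hg) (m + 1) hI
  have i2 := int_EEc hF z (g := fun p => g p * (1 - ⟪F p, F z⟫ ^ 2))
    (hg.continuous.mul (continuous_const.sub (cs.pow 2))) (m + 2) hI
  have i3 := int_EEc hF z (g := fun p => g p * ⟪N p, F z⟫ ^ 2)
    (hg.continuous.mul (ct.pow 2)) (m + 2) hI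
  rw [lin3 i1 i2 i3, ← hm] at h1
  have h3 := EE_s2 (μ := volM V F) (s := fun x => ⟪F x, F z⟫) (g := g) cs.measurable
    hg.continuous.measurable hs1 hC m hI
  have h4 := EE_s (μ := volM V F) (s := fun x => ⟪F x, F z⟫) (g := g) cs.measurable
    hg.continuous.measurable hs1 hC m hI
  unfold E1
  unfold EE at h3 h4 ⊢
  linear_combination sin φ * h1 - ((m : ℝ) + 1) * h3 + (m : ℝ) * h4

/-- the derivative of the square -/
lemma dl_sq (hF : SphImm V F) (a y : W) (c : ℝ) (p : M) :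
    dl V F y (fun q => (⟪F q, a⟫ + c) ^ 2) p = 2 * (⟪F p, a⟫ + c) * ⟪dl V F y F p, a⟫ := by
  have hd : HasDerivAt (fun t : ℝ => (t + c) ^ 2) (2 * (⟪F p, a⟫ + c)) ⟪F p, a⟫ := by
    have := ((hasDerivAt_id (⟪F p, a⟫)).add_const c).fun_pow 2
    simpa using this
  rw [dl_comp (w := fun t : ℝ => (t + c) ^ 2) y (smooth_inner hF.smooth a) p hd,
    dl_inner y hF.smooth]

/-- the derivative of the affine function -/
lemma dl_aff (hF : SphImm V F) (a y : W) (c : ℝ) (p : M) :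
    dl V F y (fun q => ⟪F q, a⟫ + c) p = ⟪dl V F y F p, a⟫ := by
  have hd : HasDerivAt (fun t : ℝ => t + c) 1 ⟪F p, a⟫ :=
    (hasDerivAt_id (⟪F p, a⟫)).add_const c
  rw [dl_comp (w := fun t : ℝ => t + c) y (smooth_inner hF.smooth a) p hd,
    dl_inner y hF.smooth, one_mul]

/-- the two point identities on a minimal hypersurface -/
theorem sys_of_min (hm1 : 1 ≤ Module.finrank ℝ V)
    (hW : Module.finrank ℝ W = Module.finrank ℝ V + 2)
    (hF : SphImm V F) (hmin : ∀ x n, IsUnitNormal V F x n → meanCurv V F x n = 0)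
    (hNs : ContMDiff 𝓘(ℝ, V) 𝓘(ℝ, W) ∞ N) (hN : ∀ x, IsUnitNormal V F x (N x)) :
    Sys (volM V F) (Module.finrank ℝ V) F N := by
  have hV : VolChart V F := volChart_of_sphImm hF
  have hT := twoPt_of_min hm1 hW hF hmin hNs hN
  have hcF : Continuous F := hF.smooth.continuous
  have hcN : Continuous N := hNs.continuous
  obtain ⟨m, hm⟩ : ∃ m, m = Module.finrank ℝ V := ⟨_, rfl⟩
  have hm0 : (m : ℝ) ≠ 0 := by
    have : (1 : ℝ) ≤ m := by rw [hm]; exact_mod_cast hm1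
    positivity
  rw [← hm] at hT ⊢
  refine ⟨hT, fun x => (hN x).2.1, ?_, ?_, ?_⟩
  · intro z φ hφ
    have h := ker_g hW hF hmin hV hNs hN z (g := fun _ => 1) contMDiff_const hφ hm
    have e : ∀ p, dl V F (F z) (fun _ : M => (1 : ℝ)) p = 0 := by
      intro p
      unfold dl
      have e : rep (V := V) (fun _ : M => (1 : ℝ)) p = fun _ => 1 := rfl
      rw [e]
      simp
    simp only [e, zero_mul, integral_zero, mul_zero, zero_add, one_mul] at h
    exact h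
  · intro z φ hφ
    obtain ⟨hs, hc, hI⟩ := trig_pos hφ
    have cs : Continuous (fun x => ⟪F x, F z⟫) := hcF.inner continuous_const
    have ct : Continuous (fun x => ⟪N x, F z⟫) := hcN.inner continuous_const
    have cf : Continuous (fun x => ⟪N x, N z⟫) := hcN.inner continuous_const
    have ch : Continuous (fun x => ⟪F x, N z⟫) := hcF.inner continuous_const
    have hs1 : ∀ x, |⟪F x, F z⟫| ≤ 1 := fun x => abs_FF_le hF x z
    have hNz : ‖N z‖ = 1 := (hN z).1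
    have hyb : ⟪F z, N z⟫ = 0 := (hN z).2.1
    have h1 := first_variation hW hF hmin hV (N z)
      (h := fun q => ⟪F q, N z⟫ * DD m φ ⟪F q, F z⟫)
      ((smooth_inner hF.smooth (N z)).mul (smooth_DD hF z m hI))
    have e1 : ∀ p, dl V F (N z) (fun q => ⟪F q, N z⟫ * DD m φ ⟪F q, F z⟫) p
        = 1 * ((1 - ⟪N p, N z⟫ ^ 2) * DD m φ ⟪F p, F z⟫)
          + (-1) * (⟪F p, N z⟫ ^ 2 * DD m φ ⟪F p, F z⟫)
          + (-((m : ℝ) * sin φ)) * (⟪F p, N z⟫ ^ 2 * ⟪F p, F z⟫ * DD (m + 1) φ ⟪F p, F z⟫)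
          + (-((m : ℝ) * sin φ)) * (⟪F p, N z⟫ * ⟪N p, F z⟫ * ⟪N p, N z⟫ *
            DD (m + 1) φ ⟪F p, F z⟫) := by
      intro p
      rw [dl_mul (N z) (smooth_inner hF.smooth (N z)) (smooth_DD hF z m hI),
        dl_DD hF z m hI, dl_inner (N z) hF.smooth, dl_F hW hF hN]
      simp only [inner_sub_left, real_inner_smul_left, real_inner_self_eq_norm_sq, hNz]
      rw [real_inner_comm (F p) (N z), real_inner_comm (N p) (N z), real_inner_comm (F z) (N z),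
        hyb]
      ring
    have e2 : ∀ p, ⟪N z, F p⟫ * (⟪F p, N z⟫ * DD m φ ⟪F p, F z⟫)
        = ⟪F p, N z⟫ ^ 2 * DD m φ ⟪F p, F z⟫ := by
      intro p
      rw [real_inner_comm (F p) (N z)]; ring
    simp only [e1, e2] at h1
    have j1 := int_EEc hF z (g := fun x => 1 - ⟪N x, N z⟫ ^ 2)
      (continuous_const.sub (cf.pow 2)) m hI
    have j2 := int_EEc hF z (g := fun x => ⟪F x, N z⟫ ^ 2) (ch.pow 2) m hI
    have j3 := int_EEc hF z (g := fun x => ⟪F x, N z⟫ ^ 2 * ⟪F x, F z⟫)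
      ((ch.pow 2).mul cs) (m + 1) hI
    have j4 := int_EEc hF z (g := fun x => ⟪F x, N z⟫ * ⟪N x, F z⟫ * ⟪N x, N z⟫)
      ((ch.mul ct).mul cf) (m + 1) hI
    rw [lin4 j1 j2 j3 j4, ← hm] at h1
    obtain ⟨C, hC⟩ := bdd_of_cont (ch.pow 2)
    have h4 := EE_s (μ := volM V F) (s := fun x => ⟪F x, F z⟫) (g := fun x => ⟪F x, N z⟫ ^ 2)
      cs.measurable (ch.pow 2).measurable hs1 hC m hI
    unfold E1
    unfold EE at *
    linear_combination (-1 : ℝ) * h1 - (m : ℝ) * h4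
  · intro a z φ hφ
    obtain ⟨hs, hc, hI⟩ := trig_pos hφ
    have cs : Continuous (fun x => ⟪F x, F z⟫) := hcF.inner continuous_const
    have ct : Continuous (fun x => ⟪N x, F z⟫) := hcN.inner continuous_const
    have cu : Continuous (fun x => ⟪F x, a⟫) := hcF.inner continuous_const
    have cn : Continuous (fun x => ⟪N x, a⟫) := hcN.inner continuous_const
    set c := ⟪F z, a⟫ with hcdef
    have hsm : ContMDiff 𝓘(ℝ, V) 𝓘(ℝ, ℝ) ∞ (fun q => ⟪F q, a⟫ + c) :=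
      (smooth_inner hF.smooth a).add contMDiff_const
    have hsm2 : ContMDiff 𝓘(ℝ, V) 𝓘(ℝ, ℝ) ∞ (fun q => (⟪F q, a⟫ + c) ^ 2) := by
      have := hsm.mul hsm
      refine this.congr fun q => ?_
      simp only [Pi.mul_apply, sq]
    have h := ker_g hW hF hmin hV hNs hN z hsm2 hφ hm
    have h1 := first_variation hW hF hmin hV a
      (h := fun q => (⟪F q, a⟫ + c) * DD m φ ⟪F q, F z⟫) (hsm.mul (smooth_DD hF z m hI))
    have e1 : ∀ p, dl V F a (fun q => (⟪F q, a⟫ + c) * DD m φ ⟪F q, F z⟫) p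
        = 1 * ((‖a‖ ^ 2 - ⟪F p, a⟫ ^ 2 - ⟪N p, a⟫ ^ 2) * DD m φ ⟪F p, F z⟫)
          + (m * sin φ) * ((⟪F p, a⟫ + c) * (c - ⟪F p, a⟫ * ⟪F p, F z⟫ - ⟪N p, a⟫ * ⟪N p, F z⟫)
            * DD (m + 1) φ ⟪F p, F z⟫) := by
      intro p
      rw [dl_mul a hsm (smooth_DD hF z m hI), dl_DD hF z m hI, dl_aff hF, dl_F hW hF hN]
      simp only [inner_sub_left, real_inner_smul_left, real_inner_self_eq_norm_sq]
      rw [real_inner_comm (F p) a, real_inner_comm (N p) a, real_inner_comm (F z) a, ← hcdef]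
      ring
    have e2 : ∀ p, ⟪a, F p⟫ * ((⟪F p, a⟫ + c) * DD m φ ⟪F p, F z⟫)
        = ⟪F p, a⟫ * (⟪F p, a⟫ + c) * DD m φ ⟪F p, F z⟫ := by
      intro p
      rw [real_inner_comm (F p) a]; ring
    have e3 : ∀ p, dl V F (F z) (fun q => (⟪F q, a⟫ + c) ^ 2) p * DD (m + 1) φ ⟪F p, F z⟫
        = 2 * ((⟪F p, a⟫ + c) * (c - ⟪F p, a⟫ * ⟪F p, F z⟫ - ⟪N p, a⟫ * ⟪N p, F z⟫)
            * DD (m + 1) φ ⟪F p, F z⟫) := by
      intro p
      rw [dl_sq hF, dl_F hW hF hN]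
      simp only [inner_sub_left, real_inner_smul_left]
      rw [real_inner_comm (F p) (F z), real_inner_comm (N p) (F z), ← hcdef]
      ring
    simp only [e1, e2] at h1
    simp only [e3] at h
    have j1 := int_EEc hF z (g := fun x => ‖a‖ ^ 2 - ⟪F x, a⟫ ^ 2 - ⟪N x, a⟫ ^ 2)
      ((continuous_const.sub (cu.pow 2)).sub (cn.pow 2)) m hI
    have j2 := int_EEc hF z (g := fun x => (⟪F x, a⟫ + c) *
      (c - ⟪F x, a⟫ * ⟪F x, F z⟫ - ⟪N x, a⟫ * ⟪N x, F z⟫))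
      ((cu.add continuous_const).mul ((continuous_const.sub (cu.mul cs)).sub (cn.mul ct)))
      (m + 1) hI
    have j3 := int_EEc hF z (g := fun x => (⟪F x, a⟫ + c) ^ 2)
      ((cu.add continuous_const).pow 2) m hI
    have j4 := int_EEc hF z (g := fun x => ⟪F x, a⟫ * (⟪F x, a⟫ + c))
      (cu.mul (cu.add continuous_const)) m hI
    rw [lin2 j1 j2, ← hm] at h1
    rw [integral_const_mul] at h
    have e4 : E1 (volM V F) F z m (fun x => c ^ 2 - ⟪F x, a⟫ ^ 2) φ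
        = 1 * E1 (volM V F) F z m (fun x => (⟪F x, a⟫ + c) ^ 2) φ
          + (-2) * E1 (volM V F) F z m (fun x => ⟪F x, a⟫ * (⟪F x, a⟫ + c)) φ := by
      unfold E1 EE
      rw [← lin2 j3 j4]
      refine integral_congr_ae ?_
      filter_upwards with x
      ring
    rw [e4]
    unfold E1 EE at h ⊢
    have h5 := congrArg (fun y => 2 / (m : ℝ) * y) h1
    set I1 := ∫ x, (‖a‖ ^ 2 - ⟪F x, a⟫ ^ 2 - ⟪N x, a⟫ ^ 2) * DD m φ ⟪F x, F z⟫ ∂(volM V F)
    set I2 := ∫ x, (⟪F x, a⟫ + c) * (c - ⟪F x, a⟫ * ⟪F x, F z⟫ - ⟪N x, a⟫ * ⟪N x, F z⟫)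
      * DD (m + 1) φ ⟪F x, F z⟫ ∂(volM V F)
    set I4 := ∫ x, ⟪F x, a⟫ * (⟪F x, a⟫ + c) * DD m φ ⟪F x, F z⟫ ∂(volM V F)
    have h6 : 2 / (m : ℝ) * (1 * I1 + m * sin φ * I2) = 2 / m * I1 + 2 * sin φ * I2 := by
      field_simp
    have h7 : 2 / (m : ℝ) * (m * I4) = 2 * I4 := by field_simp
    rw [h6, h7] at h5
    linear_combination h - h5

end

end Vale.Agent.P224.FV
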