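import Vale.Agent.P224.GG.Dbl3

namespace Vale.Agent.P224.FV

open MeasureTheory Set Real Filter
open scoped RealInnerProductSpace Topology

set_option linter.unusedSectionVars false

section

variable {X : Type*} [MeasurableSpace X] {E : Type*} [NormedAddCommGroup E]
  [InnerProductSpace ℝ E] [FiniteDimensional ℝ E] [MeasurableSpace E] [BorelSpace E]
  {μ : Measure X} [IsFiniteMeasure μ] {m : ℕ} {p n : X → E}

lemma BB_eq' (k : ℕ) (φ : ℝ) :
    BB μ k p n φ = cos φ ^ k * E2 μ p k (fun q => ⟪n q.1, n q.2⟫) φ := by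
  unfold BB E2 EE
  rw [← integral_const_mul]
  refine integral_congr_ae ?_
  filter_upwards with x
  rw [cf_pow']; ring

/-- the tilt is controlled by the difference of the two functions -/
lemma TwoPt.W_le_JB (h : TwoPt μ m p n) {φ : ℝ} (hφ : φ ∈ Ioo 0 (π / 2)) :
    cos φ ^ m * E2 μ p m (fun q => 1 - ⟪n q.1, n q.2⟫ ^ 2) φ
      ≤ 2 * (JJ μ m p φ - BB μ m p n φ) := by
  obtain ⟨hs, hc, hI⟩ := trig_pos hφ
  have hms := h.toPts.ms
  have hbs : ∀ q : X × X, |⟪p q.1, p q.2⟫| ≤ 1 := fun q => h.abs_pp q.1 q.2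
  have hbn : ∀ q : X × X, |⟪n q.1, n q.2⟫| ≤ 1 := fun q => h.toPts.abs_le (h.nn _) (h.nn _)
  have i1 := int_EE (μ := μ.prod μ) (g := fun q : X × X => 1 - ⟪n q.1, n q.2⟫ ^ 2) hms
    (((meas_nn h.toPts).pow_const 2).const_sub 1) hbs (abs_1f h.toPts) hI m
  have i2 := int_EE (μ := μ.prod μ) (g := fun _ : X × X => (1 : ℝ)) hms measurable_const hbs
    abs_one_le hI m
  have i3 := int_EE (μ := μ.prod μ) (g := fun q : X × X => ⟪n q.1, n q.2⟫) hms
    (meas_nn h.toPts) hbs hbn hI m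
  rw [JJ_eq', BB_eq']
  have h1 : E2 μ p m (fun q => 1 - ⟪n q.1, n q.2⟫ ^ 2) φ
      ≤ 2 * E2 μ p m (fun _ => 1) φ + (-2) * E2 μ p m (fun q => ⟪n q.1, n q.2⟫) φ := by
    unfold E2 EE
    rw [← lin2 i2 i3]
    refine integral_mono i1 ((i2.const_mul _).add (i3.const_mul _)) fun q => ?_
    have hd := (DD_pos (k := m) (den_pos hI (hbs q))).le
    have h2 : 0 ≤ (1 - ⟪n q.1, n q.2⟫) ^ 2 * DD m φ ⟪p q.1, p q.2⟫ :=
      mul_nonneg (sq_nonneg _) hd
    simp only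
    linarith
  have h2 := mul_le_mul_of_nonneg_left h1 (show 0 ≤ cos φ ^ m by positivity)
  linarith

/-- the weight -/
noncomputable def dw (r : ℝ) : ℝ := (1 - r) * (3 - r) / (5 - r ^ 2)

/-- its derivative -/
noncomputable def dw' (r : ℝ) : ℝ := -(4 * (5 - 4 * r + r ^ 2)) / (5 - r ^ 2) ^ 2

lemma hasDerivAt_dw {r : ℝ} (hr : 5 - r ^ 2 ≠ 0) : HasDerivAt dw (dw' r) r := by
  unfold dw dw'
  have h := hasDerivAt_id' r
  refine (((h.const_sub 1).fun_mul (h.const_sub 3)).fun_div ((h.fun_pow 2).const_sub 5) hr).congr_deriv ?_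
  congr 1
  push_cast
  ring

/-- the pointwise inequality -/
lemma dw_ineq {r : ℝ} (h0 : 0 ≤ r) (h1 : r ≤ 1) :
    dw' r * (1 - r ^ 2) * (1 - r) / 2 + (1 - dw r) - r * (1 + dw r) ≤ 0 := by
  have hq : 0 < 5 - r ^ 2 := by nlinarith
  have e : dw' r * (1 - r ^ 2) * (1 - r) / 2 + (1 - dw r) - r * (1 + dw r)
      = -(2 * r * (1 - r) ^ 4) / (5 - r ^ 2) ^ 2 := by
    unfold dw dw'
    field_simp
    ring
  rw [e, neg_div]
  have : 0 ≤ 2 * r * (1 - r) ^ 4 / (5 - r ^ 2) ^ 2 := by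
    have : 0 ≤ (1 - r) ^ 4 := by positivity
    positivity
  linarith

lemma dw_nonneg {r : ℝ} (h0 : 0 ≤ r) (h1 : r ≤ 1) : 0 ≤ dw r := by
  have hq : 0 < 5 - r ^ 2 := by nlinarith
  exact div_nonneg (mul_nonneg (by linarith) (by linarith)) hq.le

lemma dw_le {r : ℝ} (h0 : 0 ≤ r) (h1 : r ≤ 1) : dw r ≤ 1 := by
  have hq : 0 < 5 - r ^ 2 := by nlinarith
  unfold dw
  rw [div_le_one hq]
  nlinarith

lemma dw'_nonpos {r : ℝ} : dw' r ≤ 0 := by
  unfold dw'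
  rw [neg_div]
  have : 0 ≤ 4 * (5 - 4 * r + r ^ 2) / (5 - r ^ 2) ^ 2 := by
    have : 0 ≤ 5 - 4 * r + r ^ 2 := by nlinarith [sq_nonneg (r - 2)]
    positivity
  linarith

/-- the inequality for the total normal -/
theorem Sys.part_F (h : Sys μ m p n) (hm : 1 ≤ m) {L : ℝ}
    (hL : ∀ ε > 0, ∀ᶠ φ in 𝓝[<] (π / 2), L - ε ≤ JJ μ m p φ)
    (hJB : ∀ ε > 0, ∀ᶠ φ in 𝓝[<] (π / 2), |JJ μ m p φ - BB μ m p n φ| ≤ ε) :
    5 * L ≤ 4 * μ.real univ ^ 2 + BB μ m p n 0 := by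
  obtain ⟨a, b, hab⟩ := h.main
  have hpi := pi_pos
  have hm0 : (0 : ℝ) < m := by exact_mod_cast hm
  have hsub : ∀ φ ∈ Ico 0 (π / 2), φ ∈ Ioo (-(π / 2)) (π / 2) := fun φ hφ =>
    ⟨by linarith [hφ.1], hφ.2⟩
  set J := JJ μ m p with hJ
  set B := BB μ m p n with hB
  set H : ℝ → ℝ := fun φ => B φ + J φ + dw (sin φ) * (J φ - B φ) with hH
  have hq : ∀ φ : ℝ, 5 - sin φ ^ 2 ≠ 0 := by
    intro φ h0
    have := sin_sq_le_one φ
    linarith
  have hHd : ∀ φ ∈ Ico 0 (π / 2), HasDerivAt H (b φ + -(sin φ * a φ)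
      + (dw' (sin φ) * cos φ * (J φ - B φ) + dw (sin φ) * (-(sin φ * a φ) - b φ))) φ := by
    intro φ hφ
    obtain ⟨h1, h2, -⟩ := hab φ (hsub φ hφ)
    have h3 : HasDerivAt (fun φ => dw (sin φ)) (dw' (sin φ) * cos φ) φ :=
      (hasDerivAt_dw (hq φ)).comp φ (Real.hasDerivAt_sin φ)
    exact (h2.fun_add h1).fun_add (h3.fun_mul (h1.fun_sub h2))
  have hanti : AntitoneOn H (Ico 0 (π / 2)) := by
    refine antitoneOn_of_deriv_nonpos (convex_Ico 0 (π / 2)) ?_ ?_ ?_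
    · exact fun ψ hψ => (hHd ψ hψ).continuousAt.continuousWithinAt
    · intro ψ hψ
      rw [interior_Ico] at hψ
      exact (hHd ψ ⟨hψ.1.le, hψ.2⟩).differentiableAt.differentiableWithinAt
    · intro ψ hψ
      rw [interior_Ico] at hψ
      obtain ⟨hs, hc, hI⟩ := trig_pos hψ
      obtain ⟨h1, h2, h3⟩ := hab ψ hI
      rw [(hHd ψ ⟨hψ.1.le, hψ.2⟩).deriv]
      have hs1 : sin ψ ≤ 1 := sin_le_one ψ
      have ha0 : 0 ≤ a ψ := (abs_nonneg _).trans h3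
      have hba : b ψ ≤ a ψ := (le_abs_self _).trans h3
      -- the energy bound
      have hT := h.T_le hψ
      have hW := h.W_le_JB hψ
      have hd := h1.unique (h.dJJ hm hψ)
      set T := E2 μ p (m + 1) (fun q => ⟪n q.1, p q.2⟫ ^ 2) ψ with hTdef
      have hT0 : 0 ≤ T := EE_nonneg (μ := μ.prod μ) (s := fun q : X × X => ⟪p q.1, p q.2⟫)
        (fun q => h.abs_pp q.1 q.2) (fun q => sq_nonneg ⟪n q.1, p q.2⟫) (m + 1) hI
      have hcm : 0 < cos ψ ^ m := by positivity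
      have ha : a ψ = m * (cos ψ ^ m * T) / cos ψ := by
        have h4 : sin ψ * (a ψ) = sin ψ * (m * (cos ψ ^ m * T) / cos ψ) := neg_inj.mp hd
        exact mul_left_cancel₀ hs.ne' h4
      have ha' : a ψ * cos ψ = m * (cos ψ ^ m * T) := by
        rw [ha]; field_simp
      have hE : (1 - sin ψ) * (a ψ * cos ψ) ≤ 2 * (J ψ - B ψ) := by
        have h4 : (1 - sin ψ) * (((m : ℝ) + 1) * (cos ψ ^ m * T)) ≤ 2 * (J ψ - B ψ) := by
          calc (1 - sin ψ) * (((m : ℝ) + 1) * (cos ψ ^ m * T))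
              = cos ψ ^ m * ((1 - sin ψ) * (((m : ℝ) + 1) * T)) := by ring
            _ ≤ cos ψ ^ m * E2 μ p m (fun q => 1 - ⟪n q.1, n q.2⟫ ^ 2) ψ :=
                mul_le_mul_of_nonneg_left hT hcm.le
            _ ≤ _ := hW
        refine le_trans ?_ h4
        rw [ha']
        have h5 : 0 ≤ cos ψ ^ m * T := by positivity
        have h6 : (1 - sin ψ) * (((m : ℝ) + 1) * (cos ψ ^ m * T))
            = (1 - sin ψ) * (m * (cos ψ ^ m * T)) + (1 - sin ψ) * (cos ψ ^ m * T) := by ring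
        rw [h6]
        have h7 : 0 ≤ (1 - sin ψ) * (cos ψ ^ m * T) := mul_nonneg (by linarith) h5
        linarith
      have hd0 := dw_nonneg hs.le hs1
      have hd1 := dw_le hs.le hs1
      have hd' : dw' (sin ψ) ≤ 0 := dw'_nonpos
      have k1 : dw' (sin ψ) * cos ψ * (J ψ - B ψ)
          ≤ dw' (sin ψ) * cos ψ * ((1 - sin ψ) * (a ψ * cos ψ) / 2) :=
        mul_le_mul_of_nonpos_left (by linarith) (mul_nonpos_of_nonpos_of_nonneg hd' hc.le)
      have k2 : (1 - dw (sin ψ)) * b ψ ≤ (1 - dw (sin ψ)) * a ψ :=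
        mul_le_mul_of_nonneg_left hba (by linarith)
      have k3 := mul_nonpos_of_nonneg_of_nonpos ha0 (dw_ineq hs.le hs1)
      have hS : 1 - sin ψ ^ 2 = cos ψ ^ 2 := by have := sin_sq_add_cos_sq ψ; linarith
      rw [hS] at k3
      have e1 : a ψ * (dw' (sin ψ) * cos ψ ^ 2 * (1 - sin ψ) / 2 + (1 - dw (sin ψ))
          - sin ψ * (1 + dw (sin ψ)))
          = dw' (sin ψ) * cos ψ * ((1 - sin ψ) * (a ψ * cos ψ) / 2)
            + (1 - dw (sin ψ)) * a ψ - sin ψ * (1 + dw (sin ψ)) * a ψ := by ring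
      rw [e1] at k3
      have e2 : b ψ + -(sin ψ * a ψ)
          + (dw' (sin ψ) * cos ψ * (J ψ - B ψ) + dw (sin ψ) * (-(sin ψ * a ψ) - b ψ))
          = dw' (sin ψ) * cos ψ * (J ψ - B ψ) + (1 - dw (sin ψ)) * b ψ
            - sin ψ * (1 + dw (sin ψ)) * a ψ := by ring
      rw [e2]
      linarith
  -- the limit
  have h0 : H 0 = (8 * μ.real univ ^ 2 + 2 * B 0) / 5 := by
    simp only [hH, hJ, JJ_zero, sin_zero, dw]
    ring
  suffices hs : 2 * L ≤ H 0 by rw [h0] at hs; linarith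
  apply le_of_forall_pos_le_add
  intro ε hε
  have e1 := hL (ε / 4) (by positivity)
  have e2 := hJB (ε / 4) (by positivity)
  have e3 : ∀ᶠ φ in 𝓝[<] (π / 2), φ ∈ Ioo 0 (π / 2) := Ioo_mem_nhdsLT (by positivity)
  obtain ⟨φ, k1, k2, k3⟩ := (e1.and (e2.and e3)).exists
  have h5 := hanti (left_mem_Ico.mpr (by positivity)) (Ioo_subset_Ico_self k3) k3.1.le
  obtain ⟨hs, hc, hI⟩ := trig_pos k3
  have hd0 := dw_nonneg hs.le (sin_le_one φ)
  have hd1 := dw_le hs.le (sin_le_one φ)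
  have k4 := abs_le.mp k2
  have k6 : -(ε / 4) ≤ dw (sin φ) * (J φ - B φ) := by
    have h6 : |dw (sin φ) * (J φ - B φ)| ≤ 1 * (ε / 4) := by
      rw [abs_mul, abs_of_nonneg hd0]
      exact mul_le_mul hd1 k2 (abs_nonneg _) zero_le_one
    have := (abs_le.mp h6).1
    linarith
  simp only [hH] at h5 ⊢
  linarith [k4.2]

end

end Vale.Agent.P224.FV
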