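import Vale.Agent.P224.GG.PartII3
import Vale.Agent.P224.GG.PartF

namespace Vale.Agent.P224.FV

open MeasureTheory Set Real Filter
open scoped RealInnerProductSpace Topology

set_option linter.unusedSectionVars false

/-- the polynomial inequality -/
lemma gamma_ok {r : ℝ} (h0 : 0 ≤ r) (h1 : r ≤ 2 / 5) :
    1 ≤ (1 + r + 11 / 3 * r ^ 2) * ((1 - r ^ 2) * (1 - r)) := by
  have h2 : 0 ≤ 11 / 3 * ((1 - r) ^ 2 * (1 + r)) - (2 - r ^ 2) := by
    nlinarith [mul_nonneg h0 (sub_nonneg.2 h1), mul_nonneg (sq_nonneg r) (sub_nonneg.2 h1)]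
  have h3 : (1 + r + 11 / 3 * r ^ 2) * ((1 - r ^ 2) * (1 - r)) - 1
      = r ^ 2 * (11 / 3 * ((1 - r) ^ 2 * (1 + r)) - (2 - r ^ 2)) := by ring
  have h4 := mul_nonneg (sq_nonneg r) h2
  linarith

section

variable {X : Type*} [MeasurableSpace X] {E : Type*} [NormedAddCommGroup E]
  [InnerProductSpace ℝ E] [FiniteDimensional ℝ E] [MeasurableSpace E] [BorelSpace E]
  {μ : Measure X} [IsFiniteMeasure μ] {m : ℕ} {p n : X → E}

/-- the dimension free gap in abstract form -/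
theorem Sys.gap (h : Sys μ m p n) (hm : 1 ≤ m) {e : E} {l : ℝ} (hmo : Mo μ m p n e l)
    (hl : 0 < l) (hB : BB μ m p n 0 ≤ μ.real univ * (μ.real univ - ((m : ℝ) + 1) * l))
    {S : ℝ} (hS0 : 0 < S) (hS : ∀ z, ∀ φ ∈ Ioo 0 (π / 2), S ≤ V1 μ m p z φ)
    (hL : ∀ ε > 0, ∀ᶠ φ in 𝓝[<] (π / 2), S * μ.real univ - ε ≤ JJ μ m p φ)
    (hJB : ∀ ε > 0, ∀ᶠ φ in 𝓝[<] (π / 2), |JJ μ m p φ - BB μ m p n φ| ≤ ε)
    (hV : 0 < μ.real univ) :
    (1 + 1 / 12) * S ≤ μ.real univ := by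
  have hm0 : (0 : ℝ) < m := by exact_mod_cast hm
  set V := μ.real univ with hVdef
  set κ := ((m : ℝ) + 1) * l / V with hκdef
  have hκ : V * κ = ((m : ℝ) + 1) * l := by rw [hκdef]; field_simp
  have hκ0 : 0 ≤ κ := by rw [hκdef]; positivity
  have hn : ∫ x, ⟪n x, e⟫ ^ 2 ∂μ = V * (1 - κ) := by rw [hmo.n2, ← hκ]; ring
  have hκ1 : κ ≤ 1 := by
    have h1 : 0 ≤ V * (1 - κ) := by rw [← hn]; exact integral_nonneg fun x => sq_nonneg _
    by_contra hcon
    push Not at hcon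
    nlinarith
  rcases le_total κ (5 / 13) with hk | hk
  · -- second inequality
    set φ₂ := arcsin (27 / 100) with hφ₂
    have hs2 : sin φ₂ = 27 / 100 := sin_arcsin (by norm_num) (by norm_num)
    have h2 : φ₂ ∈ Ioo 0 (π / 2) := ⟨arcsin_pos.2 (by norm_num), arcsin_lt_pi_div_two.2 (by norm_num)⟩
    have key := h.part_two hm hmo hl hκ0 hκ1 hκ h2 (γ := 11 / 3) (by norm_num)
      (fun r h0 h1 => gamma_ok h0 (by rw [hs2] at h1; linarith)) hS0.le hS
    rw [hs2] at key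
    unfold gH at key
    have hb : 1 + 27 / 100 * κ + (2 - κ) * (27 / 100 * (27 / 100 / 2 + (27 / 100) ^ 2 / 6
        + 11 / 3 * (27 / 100) ^ 3 / 12)) ≤ 1.172 := by norm_num; linarith
    have key2 := key.trans (mul_le_mul_of_nonneg_left hb hV.le)
    linarith
  · have hB' : BB μ m p n 0 ≤ V ^ 2 * (1 - κ) := by
      refine hB.trans (le_of_eq ?_)
      rw [← hκ]; ring
    have key := h.part_F hm hL hJB
    have h3 : V * (5 * S) ≤ V * (V * (5 - κ)) := by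
      have : V * (V * (5 - κ)) = 4 * V ^ 2 + V ^ 2 * (1 - κ) := by ring
      rw [this]
      linarith
    have h4 := le_of_mul_le_mul_left h3 hV
    have h5 : V * (5 - κ) ≤ V * (60 / 13) := mul_le_mul_of_nonneg_left (by linarith) hV.le
    linarith

end

end Vale.Agent.P224.FV
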