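import Vale.Agent.P224.GG.Inst
import Vale.Agent.P224.GG.Num
import Vale.Agent.P224.GG.Eig
import Vale.Agent.P224.FV.MainC
import Vale.Agent.P224.TwoSide.Main
import Vale.Agent.P224.TwoSide.Double

namespace Vale.Agent.P224.FV

open MeasureTheory Set Real Filter
open scoped RealInnerProductSpace Topology ContDiff Manifold

set_option linter.unusedSectionVars false

section

variable {V W M : Type*} [NormedAddCommGroup V] [InnerProductSpace ℝ V] [FiniteDimensional ℝ V]
  [NormedAddCommGroup W] [InnerProductSpace ℝ W] [FiniteDimensional ℝ W]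
  [TopologicalSpace M] [ChartedSpace V M]
  [MeasurableSpace V] [BorelSpace V] [MeasurableSpace M] [BorelSpace M]
  [IsManifold 𝓘(ℝ, V) ∞ M] [CompactSpace M] [T2Space M] {F : M → W} {N : M → W}

/-- the moments of a minimal hypersurface -/
theorem mo_of_min [MeasurableSpace W] [BorelSpace W] [Nonempty M]
    (hm1 : 1 ≤ Module.finrank ℝ V) (hW : Module.finrank ℝ W = Module.finrank ℝ V + 2)
    (hF : SphImm V F) (hmin : ∀ x n, IsUnitNormal V F x n → meanCurv V F x n = 0)
    (hNs : ContMDiff 𝓘(ℝ, V) 𝓘(ℝ, W) ∞ N) (hN : ∀ x, IsUnitNormal V F x (N x))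
    (hne : ¬ ∃ a : W, a ≠ 0 ∧ ∀ x, ⟪F x, a⟫ = 0) :
    ∃ (e : W) (l : ℝ), 0 < l ∧ Mo (volM V F) (Module.finrank ℝ V) F N e l ∧
      BB (volM V F) (Module.finrank ℝ V) F N 0 ≤ (volM V F).real univ *
        ((volM V F).real univ - ((Module.finrank ℝ V : ℝ) + 1) * l) := by
  have hV : VolChart V F := volChart_of_sphImm hF
  have hfin : IsFiniteMeasure (volM V F) := isFiniteMeasure_volM hF
  have hT := twoPt_of_min hm1 hW hF hmin hNs hN
  have hcF : Continuous F := hF.smooth.continuous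
  have hcN : Continuous N := hNs.continuous
  have hnt : Nontrivial W := by
    apply Module.nontrivial_of_finrank_pos (R := ℝ)
    omega
  obtain ⟨e, he, hle, heig⟩ := exists_top (μ := volM V F) hcN.measurable (fun x => (hN x).1)
  obtain ⟨q, hq⟩ : ∃ q, q = ∫ x, ⟪N x, e⟫ ^ 2 ∂(volM V F) := ⟨_, rfl⟩
  rw [← hq] at heig
  simp only [← hq] at hle
  obtain ⟨m, hm⟩ : ∃ m, m = Module.finrank ℝ V := ⟨_, rfl⟩
  rw [← hm]
  have hm0 : (0 : ℝ) < (m : ℝ) + 1 := by positivity
  have hmp : (0 : ℝ) < m := by rw [hm]; exact_mod_cast hm1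
  have p1 : ∀ b : W, ∫ x, ⟪F x, b⟫ ∂(volM V F) = 0 := by
    intro b
    have h := first_variation hW hF hmin hV b (h := fun _ => 1) contMDiff_const
    have e1 : ∀ p, dl V F b (fun _ : M => (1 : ℝ)) p = 0 := by
      intro p
      unfold dl
      have e : rep (V := V) (fun _ : M => (1 : ℝ)) p = fun _ => 1 := rfl
      rw [e]
      simp
    simp only [e1, integral_zero, mul_one] at h
    rw [← hm] at h
    have h2 := (mul_eq_zero.mp h.symm).resolve_left hmp.ne'
    rw [← h2]
    refine integral_congr_ae ?_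
    filter_upwards with x
    rw [real_inner_comm]
  have p2 : ∀ a b : W, ((m : ℝ) + 1) * ∫ x, ⟪F x, a⟫ * ⟪F x, b⟫ ∂(volM V F)
      = (volM V F).real univ * ⟪a, b⟫ - ∫ x, ⟪N x, a⟫ * ⟪N x, b⟫ ∂(volM V F) := by
    intro a b
    have h := first_variation hW hF hmin hV a (h := fun q => ⟪F q, b⟫) (smooth_inner hF.smooth b)
    have e1 : ∀ p, dl V F a (fun q => ⟪F q, b⟫) p
        = ⟪a, b⟫ * 1 + (-1) * (⟪F p, a⟫ * ⟪F p, b⟫) + (-1) * (⟪N p, a⟫ * ⟪N p, b⟫) := by
      intro p
      rw [dl_inner a hF.smooth, dl_F hW hF hN]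
      simp only [inner_sub_left, real_inner_smul_left]
      rw [real_inner_comm (F p) a, real_inner_comm (N p) a]
      ring
    have e2 : ∀ p, ⟪a, F p⟫ * ⟪F p, b⟫ = ⟪F p, a⟫ * ⟪F p, b⟫ := by
      intro p
      rw [real_inner_comm (F p) a]
    simp only [e1, e2] at h
    have i1 : Integrable (fun x => ⟪F x, a⟫ * ⟪F x, b⟫) (volM V F) :=
      integrable_of_cont _ ((hcF.inner continuous_const).mul (hcF.inner continuous_const))
    have i2 : Integrable (fun x => ⟪N x, a⟫ * ⟪N x, b⟫) (volM V F) :=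
      integrable_of_cont _ ((hcN.inner continuous_const).mul (hcN.inner continuous_const))
    rw [lin3 (integrable_const _) i1 i2, integral_const, smul_eq_mul, ← hm] at h
    linear_combination -h
  set A := (volM V F).real univ with hA
  have hl2 : ∀ b : W, ∫ x, ⟪F x, e⟫ * ⟪F x, b⟫ ∂(volM V F) = (A - q) / (m + 1) * ⟪e, b⟫ := by
    intro b
    have h := p2 e b
    rw [heig b] at h
    field_simp
    linear_combination h
  have hle' : ∫ x, ⟪F x, e⟫ ^ 2 ∂(volM V F) = (A - q) / (m + 1) := by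
    have h := hl2 e
    rw [real_inner_self_eq_norm_sq, he] at h
    simp only [← sq] at h
    rw [h]; ring
  have hlpos : 0 < (A - q) / ((m : ℝ) + 1) := by
    rw [← hle']
    have hop : (volM V F).IsOpenPosMeasure :=
      ⟨fun U hU hne => (volM_pos_of_isOpen hW hF hU hne).ne'⟩
    have hex : ∃ x, ⟪F x, e⟫ ≠ 0 := by
      by_contra hcon
      push Not at hcon
      exact hne ⟨e, by intro h0; rw [h0, norm_zero] at he; exact zero_ne_one he, hcon⟩
    obtain ⟨x, hx⟩ := hex
    exact ((hcF.inner (continuous_const (y := e))).pow 2).integral_pos_of_hasCompactSupport_nonneg_nonzero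
      (HasCompactSupport.of_compactSpace _) (fun x => sq_nonneg _) (pow_ne_zero 2 hx)
  refine ⟨e, (A - q) / (m + 1), hlpos, ⟨he, p1, hl2, ?_⟩, ?_⟩
  · rw [← hq, ← hA]
    field_simp
    ring
  · have h0 : 0 ≤ q := by rw [hq]; exact integral_nonneg fun x => sq_nonneg _
    have h1 := BB_zero_le (m := Module.finrank ℝ V) hT.toPts h0 hle
    rw [← hm] at h1
    refine h1.trans (le_of_eq ?_)
    rw [← hA]
    field_simp
    ring

/-- the gap with a normal field -/
theorem main_G [Nonempty M] (hm1 : 1 ≤ Module.finrank ℝ V)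
    (hW : Module.finrank ℝ W = Module.finrank ℝ V + 2)
    (hF : SphImm V F) (hmin : ∀ x n, IsUnitNormal V F x n → meanCurv V F x n = 0)
    (hNs : ContMDiff 𝓘(ℝ, V) 𝓘(ℝ, W) ∞ N) (hN : ∀ x, IsUnitNormal V F x (N x))
    (hinj : Function.Injective F)
    (hne : ¬ ∃ a : W, a ≠ 0 ∧ ∀ x, ⟪F x, a⟫ = 0) :
    (1 + 1 / 12) * sphereVol (Module.finrank ℝ V) ≤ (volM V F).real univ := by
  borelize W
  have hfin : IsFiniteMeasure (volM V F) := isFiniteMeasure_volM hF
  have hT := twoPt_of_min hm1 hW hF hmin hNs hN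
  have hsys := sys_of_min hm1 hW hF hmin hNs hN
  obtain ⟨e, l, hl, hmo, hB⟩ := mo_of_min hm1 hW hF hmin hNs hN hne
  obtain ⟨hL, hJB⟩ := limits hm1 hW hF hNs.continuous hT hinj
  have hS0 := sphereVol_pos' (Module.finrank ℝ V)
  have h1 := one_le hm1 hW hF hT
  refine hsys.gap hm1 hmo hl hB hS0 ?_ hL hJB (hS0.trans_le h1)
  intro z φ hφ
  exact V1_ge hm1 hF hT z (fun ε hε => limit_one hm1 hW hF z hε) ⟨hφ.1.le, hφ.2⟩

/-- the inequality for the total normal -/
theorem main_N [Nonempty M] (hm1 : 1 ≤ Module.finrank ℝ V)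
    (hW : Module.finrank ℝ W = Module.finrank ℝ V + 2)
    (hF : SphImm V F) (hmin : ∀ x n, IsUnitNormal V F x n → meanCurv V F x n = 0)
    (hNs : ContMDiff 𝓘(ℝ, V) 𝓘(ℝ, W) ∞ N) (hN : ∀ x, IsUnitNormal V F x (N x)) :
    5 * (sphereVol (Module.finrank ℝ V) * (volM V F).real univ) ≤
      4 * (volM V F).real univ ^ 2 + ‖∫ x, N x ∂(volM V F)‖ ^ 2 := by
  borelize W
  have hfin : IsFiniteMeasure (volM V F) := isFiniteMeasure_volM hF
  have hT := twoPt_of_min hm1 hW hF hmin hNs hN
  have hS0 := sphereVol_pos' (Module.finrank ℝ V)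
  by_cases hinj : Function.Injective F
  · have hsys := sys_of_min hm1 hW hF hmin hNs hN
    obtain ⟨hL, hJB⟩ := limits hm1 hW hF hNs.continuous hT hinj
    have h1 := hsys.part_F hm1 hL hJB
    rwa [BB_zero_eq hT.toPts] at h1
  · simp only [Function.Injective, not_forall] at hinj
    obtain ⟨z', z, hz, hne⟩ := hinj
    have h2 := two_le_of_double hm1 hW hF hT hne hz
    have h3 := mul_le_mul_of_nonneg_right h2 (measureReal_nonneg (μ := volM V F) (s := univ))
    have h4 := sq_nonneg ‖∫ x, N x ∂(volM V F)‖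
    have h5 : 0 ≤ sphereVol (Module.finrank ℝ V) * (volM V F).real univ :=
      mul_nonneg hS0.le measureReal_nonneg
    have h6 : (volM V F).real univ ^ 2 = (volM V F).real univ * (volM V F).real univ := sq _
    rw [h6]
    linarith

/-- the dimension free gap -/
theorem main_H [ConnectedSpace M] (hm : 2 ≤ Module.finrank ℝ V)
    (hW : Module.finrank ℝ W = Module.finrank ℝ V + 2)
    (hF : SphImm V F) (hmin : ∀ x n, IsUnitNormal V F x n → meanCurv V F x n = 0)
    (hne : ¬ ∃ a : W, a ≠ 0 ∧ ∀ x, ⟪F x, a⟫ = 0) :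
    ENNReal.ofReal ((1 + 1 / 12) * sphereVol (Module.finrank ℝ V)) ≤ volM V F univ := by
  have hfin : IsFiniteMeasure (volM V F) := isFiniteMeasure_volM hF
  have hs := sphereVol_pos' (Module.finrank ℝ V)
  apply ENNReal.ofReal_le_of_le_toReal
  by_cases hinj : Function.Injective F
  · obtain ⟨N, hNs, hN⟩ := TwoSide.exists_normal hW hF hinj
    exact main_G (by omega) hW hF hmin hNs hN hinj hne
  · have h2 := TwoSide.two_le (by omega) hW hF hmin hinj
    refine le_trans ?_ h2
    gcongr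
    norm_num

end

end Vale.Agent.P224.FV
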