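import Vale.Agent.P224.GG.Dbl3

namespace Vale.Agent.P224.FV

open MeasureTheory Set Real Filter
open scoped RealInnerProductSpace Topology

set_option linter.unusedSectionVars false

section

variable {X : Type*} [MeasurableSpace X] {E : Type*} [NormedAddCommGroup E]
  [InnerProductSpace ℝ E] [FiniteDimensional ℝ E] [MeasurableSpace E] [BorelSpace E]
  {μ : Measure X} [IsFiniteMeasure μ] {m : ℕ} {p n : X → E}

/-- the second polynomial -/
noncomputable def gH (γ r : ℝ) : ℝ := r / 2 + r ^ 2 / 6 + γ * r ^ 3 / 12

end

end Vale.Agent.P224.FV
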