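import Vale.Agent.P224.GG.Dbl3

namespace Vale.Agent.P224.FV

open MeasureTheory Set Real Filter
open scoped RealInnerProductSpace Topology

set_option linter.unusedSectionVars false

section

variable {X : Type*} [MeasurableSpace X] {E : Type*} [NormedAddCommGroup E]
  [InnerProductSpace ℝ E] [FiniteDimensional ℝ E] [MeasurableSpace E] [BorelSpace E]
  {μ : Measure X} [IsFiniteMeasure μ] {m : ℕ} {p n : X → E}

/-- the two point test function -/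
noncomputable def gg (p : X → E) (e : E) (q : X × X) : ℝ := (⟪p q.1, e⟫ + ⟪p q.2, e⟫) ^ 2

/-- the squared length of the tangential part -/
noncomputable def nu (p n : X → E) (e : E) (x : X) : ℝ := 1 - ⟪p x, e⟫ ^ 2 - ⟪n x, e⟫ ^ 2

lemma meas_gg (h : Pts p n) (e : E) : Measurable (gg p e) :=
  (((h.mp.comp measurable_fst).inner measurable_const).add
    ((h.mp.comp measurable_snd).inner measurable_const)).pow_const 2

lemma meas_nu (h : Pts p n) (e : E) : Measurable (nu p n e) :=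
  (((h.mp.inner measurable_const).pow_const 2).const_sub 1).sub
    ((h.mn.inner measurable_const).pow_const 2)

lemma abs_gg (h : Pts p n) {e : E} (he : ‖e‖ = 1) (q : X × X) : |gg p e q| ≤ 4 := by
  unfold gg
  have h1 := abs_le.mp (h.abs_le (h.np q.1) he)
  have h2 := abs_le.mp (h.abs_le (h.np q.2) he)
  rw [abs_of_nonneg (sq_nonneg _)]
  nlinarith

lemma nu_nonneg (h : Pts p n) (ho : ∀ x, ⟪p x, n x⟫ = 0) {e : E} (he : ‖e‖ = 1) (x : X) :
    0 ≤ nu p n e x := by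
  have h1 : 0 ≤ ‖e - ⟪p x, e⟫ • p x - ⟪n x, e⟫ • n x‖ ^ 2 := sq_nonneg _
  have h2 : ‖e - ⟪p x, e⟫ • p x - ⟪n x, e⟫ • n x‖ ^ 2 = nu p n e x := by
    rw [← real_inner_self_eq_norm_sq]
    simp only [inner_sub_left, inner_sub_right, real_inner_smul_left, real_inner_smul_right,
      real_inner_self_eq_norm_sq, norm_smul, mul_pow, Real.norm_eq_abs, sq_abs, he, h.np, h.nn]
    rw [real_inner_comm (p x) e, real_inner_comm (n x) e, real_inner_comm (p x) (n x), ho]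
    unfold nu
    ring
  rwa [h2] at h1

lemma nu_le (x : X) (e : E) : nu p n e x ≤ 1 := by
  unfold nu
  linarith [sq_nonneg ⟪p x, e⟫, sq_nonneg ⟪n x, e⟫]

lemma abs_nu (h : Pts p n) (ho : ∀ x, ⟪p x, n x⟫ = 0) {e : E} (he : ‖e‖ = 1) (x : X) :
    |nu p n e x| ≤ 1 := by
  rw [abs_of_nonneg (nu_nonneg h ho he x)]; exact nu_le x e

/-- the two point form of the third identity -/
lemma Sys.E2_idg (h : Sys μ m p n) {e : E} (he : ‖e‖ = 1) {φ : ℝ} (hφ : φ ∈ Ioo 0 (π / 2)) :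
    ((m : ℝ) + 2) * E2 μ p (m + 1) (gg p e) φ
      = ((m : ℝ) + 1) * (cos φ ^ 2 * E2 μ p (m + 2) (gg p e) φ
        + sin φ ^ 2 * E2 μ p (m + 2) (fun q => gg p e q * ⟪n q.1, p q.2⟫ ^ 2) φ)
        + 2 / m * E2 μ p m (fun q => nu p n e q.2) φ := by
  obtain ⟨hs, hc, hI⟩ := trig_pos hφ
  have hgt : ∀ q : X × X, |gg p e q * ⟪n q.1, p q.2⟫ ^ 2| ≤ 4 := by
    intro q
    rw [abs_mul]
    calc |gg p e q| * |⟪n q.1, p q.2⟫ ^ 2| ≤ 4 * 1 :=
          mul_le_mul (abs_gg h.toPts he q) (abs_sq_le (h.toPts.abs_le (h.nn _) (h.np _)))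
            (abs_nonneg _) (by norm_num)
      _ = 4 := by norm_num
  have hpe : Measurable (fun x => ⟪p x, e⟫ ^ 2) := (h.mp.inner measurable_const).pow_const 2
  have hbe : ∀ x, |⟪p x, e⟫ ^ 2| ≤ 1 := fun x => abs_sq_le (h.toPts.abs_le (h.np _) he)
  have hanti : ∀ q : X × X, |⟪p q.2, e⟫ ^ 2 - ⟪p q.1, e⟫ ^ 2| ≤ 2 := by
    intro q
    calc |⟪p q.2, e⟫ ^ 2 - ⟪p q.1, e⟫ ^ 2| ≤ |⟪p q.2, e⟫ ^ 2| + |⟪p q.1, e⟫ ^ 2| := abs_sub _ _
      _ ≤ 1 + 1 := add_le_add (hbe _) (hbe _)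
      _ = 2 := by norm_num
  obtain ⟨i1, e1⟩ := E2_prod (μ := μ) h.toPts (meas_gg h.toPts e) (abs_gg h.toPts he) (m + 1) hI
  obtain ⟨i2, e2⟩ := E2_prod (μ := μ) h.toPts (meas_gg h.toPts e) (abs_gg h.toPts he) (m + 2) hI
  obtain ⟨i3, e3⟩ := E2_prod (μ := μ) h.toPts
    (g := fun q => gg p e q * ⟪n q.1, p q.2⟫ ^ 2)
    ((meas_gg h.toPts e).mul ((meas_np h.toPts).pow_const 2)) hgt (m + 2) hI
  obtain ⟨i4, e4⟩ := E2_prod (μ := μ) h.toPts (g := fun q => nu p n e q.1)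
    ((meas_nu h.toPts e).comp measurable_fst) (fun q => abs_nu h.toPts h.orth he q.1) m hI
  obtain ⟨i5, e5⟩ := E2_prod (μ := μ) h.toPts
    (g := fun q => ⟪p q.2, e⟫ ^ 2 - ⟪p q.1, e⟫ ^ 2)
    ((hpe.comp measurable_snd).sub (hpe.comp measurable_fst)) hanti m hI
  have h0 : E2 μ p m (fun q => ⟪p q.2, e⟫ ^ 2 - ⟪p q.1, e⟫ ^ 2) φ = 0 := by
    have h1 := E2_swap (μ := μ) (p := p) (fun q => ⟪p q.2, e⟫ ^ 2 - ⟪p q.1, e⟫ ^ 2) m φ
    simp only [Prod.fst_swap, Prod.snd_swap] at h1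
    have h2 : E2 μ p m (fun q => ⟪p q.1, e⟫ ^ 2 - ⟪p q.2, e⟫ ^ 2) φ
        = (-1) * E2 μ p m (fun q => ⟪p q.2, e⟫ ^ 2 - ⟪p q.1, e⟫ ^ 2) φ := by
      unfold E2
      rw [← EE_smul]
      congr 1
      funext q
      ring
    linarith
  rw [← E2_fst (nu p n e)]
  have key : ((m : ℝ) + 2) * ∫ z, E1 μ p z (m + 1) (fun x => gg p e (x, z)) φ ∂μ
      = (((m : ℝ) + 1) * cos φ ^ 2) * ∫ z, E1 μ p z (m + 2) (fun x => gg p e (x, z)) φ ∂μ
        + (((m : ℝ) + 1) * sin φ ^ 2) * ∫ z, E1 μ p z (m + 2)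
          (fun x => gg p e (x, z) * ⟪n (x, z).1, p (x, z).2⟫ ^ 2) φ ∂μ
        + (2 / m) * ∫ z, E1 μ p z m (fun x => nu p n e (x, z).1) φ ∂μ
        + 1 * ∫ z, E1 μ p z m
          (fun x => ⟪p (x, z).2, e⟫ ^ 2 - ⟪p (x, z).1, e⟫ ^ 2) φ ∂μ := by
    rw [← lin4 i2 i3 i4 i5, ← integral_const_mul]
    refine integral_congr_ae ?_
    filter_upwards with z
    have h1 := h.idg e z φ hφ
    rw [he, one_pow] at h1
    unfold gg nu
    simp only
    linear_combination h1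
  rw [← e1, ← e2, ← e3, ← e4, ← e5, h0] at key
  linear_combination key

/-- the derivative of the test integral -/
lemma Sys.dG (h : Sys μ m p n) {e : E} (he : ‖e‖ = 1) {φ : ℝ}
    (hφ : φ ∈ Ioo 0 (π / 2)) :
    HasDerivAt (fun φ => cos φ ^ (m + 2) * E2 μ p (m + 1) (gg p e) φ)
      (cos φ / sin φ * (cos φ ^ (m + 2) * E2 μ p (m + 1) (gg p e) φ
        - 2 / m * (cos φ ^ m * E2 μ p m (fun q => nu p n e q.2) φ))
        - ((m : ℝ) + 1) * cos φ ^ (m + 1) * sin φ *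
          E2 μ p (m + 2) (fun q => gg p e q * ⟪n q.1, p q.2⟫ ^ 2) φ) φ := by
  obtain ⟨hs, hc, hI⟩ := trig_pos hφ
  refine (dcosEE2 (μ := μ.prod μ) (m := m) h.toPts.ms (fun q => h.abs_pp q.1 q.2)
    (meas_gg h.toPts e) (abs_gg h.toPts he) hφ).congr_deriv ?_
  have h1 := h.E2_idg he hφ
  unfold E2 at h1 ⊢
  rw [h1]
  field_simp
  ring

/-- lower bound of the weighted conformal volume -/
lemma Sys.Lam_ge (h : Sys μ m p n) {e : E} (he : ‖e‖ = 1) {S : ℝ}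
    (hS : ∀ z, ∀ φ ∈ Ioo 0 (π / 2), S ≤ V1 μ m p z φ) {φ : ℝ} (hφ : φ ∈ Ioo 0 (π / 2)) :
    S * ∫ x, nu p n e x ∂μ ≤ cos φ ^ m * E2 μ p m (fun q => nu p n e q.2) φ := by
  obtain ⟨hs, hc, hI⟩ := trig_pos hφ
  obtain ⟨i1, e1⟩ := h.E2_snd (meas_nu h.toPts e) (abs_nu h.toPts h.orth he) hI
  rw [e1, ← integral_const_mul]
  refine integral_mono ((int_bdd (meas_nu h.toPts e) (abs_nu h.toPts h.orth he)).const_mul _) i1
    fun z => ?_
  simp only
  rw [mul_comm]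
  exact mul_le_mul_of_nonneg_left (hS z φ hφ) (nu_nonneg h.toPts h.orth he z)

/-- the deficit of the weighted conformal volume -/
lemma Sys.Lam_def (h : Sys μ m p n) {e : E} (he : ‖e‖ = 1) {φ : ℝ} (hφ : φ ∈ Ioo 0 (π / 2)) :
    μ.real univ * ∫ x, nu p n e x ∂μ - cos φ ^ m * E2 μ p m (fun q => nu p n e q.2) φ
      ≤ μ.real univ ^ 2 - JJ μ m p φ := by
  obtain ⟨hs, hc, hI⟩ := trig_pos hφ
  obtain ⟨i1, e1⟩ := h.E2_snd (meas_nu h.toPts e) (abs_nu h.toPts h.orth he) hI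
  obtain ⟨i2, e2⟩ := h.E2_snd (w := fun _ => 1) measurable_const abs_one_le hI
  have i3 := int_bdd (μ := μ) (meas_nu h.toPts e) (abs_nu h.toPts h.orth he)
  rw [JJ_eq', e1, e2, ← integral_const_mul, ← integral_sub (i3.const_mul _) i1]
  have e3 : μ.real univ ^ 2 = ∫ _z : X, μ.real univ ∂μ := by
    rw [integral_const, smul_eq_mul]; ring
  rw [e3, ← integral_sub (integrable_const _) i2]
  refine integral_mono ((i3.const_mul _).sub i1) ((integrable_const _).sub i2) fun z => ?_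
  simp only
  have h1 := nu_nonneg h.toPts h.orth he z
  have h2 := nu_le (p := p) (n := n) z e
  have h3 := h.V1_le' z ⟨hφ.1.le, hφ.2⟩
  nlinarith

end

end Vale.Agent.P224.FV
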