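import Vale.Agent.P224.GG.PartI
import Vale.Agent.P224.GG.PartII

namespace Vale.Agent.P224.FV

open MeasureTheory Set Real Filter
open scoped RealInnerProductSpace Topology

set_option linter.unusedSectionVars false

section

variable {X : Type*} [MeasurableSpace X] {E : Type*} [NormedAddCommGroup E]
  [InnerProductSpace ℝ E] [FiniteDimensional ℝ E] [MeasurableSpace E] [BorelSpace E]
  {μ : Measure X} [IsFiniteMeasure μ] {m : ℕ} {p n : X → E}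

/-- the moments -/
structure Mo (μ : Measure X) (m : ℕ) (p n : X → E) (e : E) (l : ℝ) : Prop where
  he : ‖e‖ = 1
  p1 : ∀ b : E, ∫ x, ⟪p x, b⟫ ∂μ = 0
  p2 : ∀ b : E, ∫ x, ⟪p x, e⟫ * ⟪p x, b⟫ ∂μ = l * ⟪e, b⟫
  n2 : ∫ x, ⟪n x, e⟫ ^ 2 ∂μ = μ.real univ - ((m : ℝ) + 1) * l

lemma Mo.p2' {e : E} {l : ℝ} (h : Mo μ m p n e l) : ∫ x, ⟪p x, e⟫ ^ 2 ∂μ = l := by
  have h1 := h.p2 e
  rw [real_inner_self_eq_norm_sq, h.he] at h1
  simp only [← sq] at h1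
  rw [h1]; ring

lemma meas_pe (h : Pts p n) (e : E) : Measurable (fun x => ⟪p x, e⟫) :=
  h.mp.inner measurable_const

lemma abs_pe (h : Pts p n) {e : E} (he : ‖e‖ = 1) (x : X) : |⟪p x, e⟫| ≤ 1 :=
  h.abs_le (h.np x) he

lemma Mo.nu_int {e : E} {l : ℝ} (h : Mo μ m p n e l) (hp : Pts p n) :
    ∫ x, nu p n e x ∂μ = m * l := by
  have i1 := int_bdd (μ := μ) ((meas_pe hp e).pow_const 2) (fun x => abs_sq_le (abs_pe hp h.he x))
  have i2 := int_bdd (μ := μ) (((hp.mn.inner (measurable_const (a := e)))).pow_const 2)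
    (fun x => abs_sq_le (hp.abs_le (hp.nn x) h.he))
  have e1 : ∫ x, nu p n e x ∂μ = ∫ x, (1 * (1 : ℝ) + (-1) * ⟪p x, e⟫ ^ 2
      + (-1) * ⟪n x, e⟫ ^ 2) ∂μ := by
    refine integral_congr_ae ?_
    filter_upwards with x
    unfold nu; ring
  rw [e1, lin3 (integrable_const _) i1 i2, h.p2', h.n2, integral_const, smul_eq_mul]
  ring

lemma zero_mem : (0 : ℝ) ∈ Ioo (-(π / 2)) (π / 2) := by
  constructor <;> linarith [pi_pos]

lemma E1_zero (z : X) (k : ℕ) (g : X → ℝ) : E1 μ p z k g 0 = ∫ x, g x ∂μ := EE_at_zero _ _ _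

lemma E2_zero (k : ℕ) (g : X × X → ℝ) : E2 μ p k g 0 = ∫ q, g q ∂(μ.prod μ) := EE_at_zero _ _ _

/-- the value at zero -/
lemma Mo.G0 {e : E} {l : ℝ} (h : Mo μ m p n e l) (hp : Pts p n) (k : ℕ) :
    E2 μ p k (gg p e) 0 = 2 * μ.real univ * l := by
  obtain ⟨-, e1⟩ := E2_prod (μ := μ) hp (meas_gg hp e) (abs_gg hp h.he) k zero_mem
  rw [e1]
  have i1 := int_bdd (μ := μ) ((meas_pe hp e).pow_const 2) (fun x => abs_sq_le (abs_pe hp h.he x))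
  have i2 := int_bdd (μ := μ) (meas_pe hp e) (abs_pe hp h.he)
  have e2 : ∀ z, E1 μ p z k (fun x => gg p e (x, z)) 0 = l * 1 + μ.real univ * ⟪p z, e⟫ ^ 2 := by
    intro z
    rw [E1_zero]
    have e3 : ∀ x, gg p e (x, z) = 1 * ⟪p x, e⟫ ^ 2 + (2 * ⟪p z, e⟫) * ⟪p x, e⟫
        + ⟪p z, e⟫ ^ 2 * 1 := by
      intro x
      unfold gg; ring
    simp only [e3]
    rw [lin3 i1 i2 (integrable_const _), h.p2', h.p1, integral_const, smul_eq_mul]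
    ring
  simp only [e2]
  rw [lin2 (integrable_const _) i1, h.p2', integral_const, smul_eq_mul]
  ring

/-- the derivative at zero -/
lemma Mo.G1 {e : E} {l : ℝ} (h : Mo μ m p n e l) (hp : Pts p n) :
    ∫ q, gg p e q * ⟪p q.1, p q.2⟫ ∂(μ.prod μ) = 2 * l ^ 2 := by
  have hs : ∀ q : X × X, |⟪p q.1, p q.2⟫| ≤ 1 := fun q => hp.abs_pp q.1 q.2
  have mpe := meas_pe hp e
  have hm1 : Measurable (fun q : X × X => ⟪p q.1, e⟫ ^ 2 * ⟪p q.1, p q.2⟫) :=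
    ((mpe.comp measurable_fst).pow_const 2).mul hp.ms
  have hm2 : Measurable (fun q : X × X => ⟪p q.2, e⟫ ^ 2 * ⟪p q.1, p q.2⟫) :=
    ((mpe.comp measurable_snd).pow_const 2).mul hp.ms
  have hm3 : Measurable (fun q : X × X => ⟪p q.1, e⟫ * ⟪p q.2, e⟫ * ⟪p q.1, p q.2⟫) :=
    ((mpe.comp measurable_fst).mul (mpe.comp measurable_snd)).mul hp.ms
  have hb1 : ∀ q : X × X, |⟪p q.1, e⟫ ^ 2 * ⟪p q.1, p q.2⟫| ≤ 1 := fun q => by
    rw [abs_mul]; exact mul_le_one₀ (abs_sq_le (abs_pe hp h.he _)) (abs_nonneg _) (hs q)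
  have hb2 : ∀ q : X × X, |⟪p q.2, e⟫ ^ 2 * ⟪p q.1, p q.2⟫| ≤ 1 := fun q => by
    rw [abs_mul]; exact mul_le_one₀ (abs_sq_le (abs_pe hp h.he _)) (abs_nonneg _) (hs q)
  have hb3 : ∀ q : X × X, |⟪p q.1, e⟫ * ⟪p q.2, e⟫ * ⟪p q.1, p q.2⟫| ≤ 1 := fun q => by
    rw [abs_mul, abs_mul]
    exact mul_le_one₀ (mul_le_one₀ (abs_pe hp h.he _) (abs_nonneg _) (abs_pe hp h.he _))
      (abs_nonneg _) (hs q)
  have j1 := int_bdd (μ := μ.prod μ) hm1 hb1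
  have j2 := int_bdd (μ := μ.prod μ) hm2 hb2
  have j3 := int_bdd (μ := μ.prod μ) hm3 hb3
  have e1 : ∀ q : X × X, gg p e q * ⟪p q.1, p q.2⟫ = 1 * (⟪p q.1, e⟫ ^ 2 * ⟪p q.1, p q.2⟫)
      + 1 * (⟪p q.2, e⟫ ^ 2 * ⟪p q.1, p q.2⟫)
      + 2 * (⟪p q.1, e⟫ * ⟪p q.2, e⟫ * ⟪p q.1, p q.2⟫) := by
    intro q
    unfold gg; ring
  simp only [e1]
  rw [lin3 j1 j2 j3]
  have s2 : ∫ q, ⟪p q.2, e⟫ ^ 2 * ⟪p q.1, p q.2⟫ ∂(μ.prod μ) = 0 := by
    rw [integral_prod_symm _ j2]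
    have : ∀ z, ∫ x, ⟪p (x, z).2, e⟫ ^ 2 * ⟪p (x, z).1, p (x, z).2⟫ ∂μ = 0 := by
      intro z
      simp only
      rw [integral_const_mul, h.p1, mul_zero]
    simp only [this, integral_zero]
  have s1 : ∫ q, ⟪p q.1, e⟫ ^ 2 * ⟪p q.1, p q.2⟫ ∂(μ.prod μ) = 0 := by
    rw [← s2, ← integral_prod_swap]
    refine integral_congr_ae ?_
    filter_upwards with q
    simp only [Prod.fst_swap, Prod.snd_swap]
    rw [real_inner_comm (p q.1) (p q.2)]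
  have s3 : ∫ q, ⟪p q.1, e⟫ * ⟪p q.2, e⟫ * ⟪p q.1, p q.2⟫ ∂(μ.prod μ) = l ^ 2 := by
    rw [integral_prod_symm _ j3]
    have : ∀ z, ∫ x, ⟪p (x, z).1, e⟫ * ⟪p (x, z).2, e⟫ * ⟪p (x, z).1, p (x, z).2⟫ ∂μ
        = l * ⟪p z, e⟫ ^ 2 := by
      intro z
      simp only
      have e2 : ∀ x, ⟪p x, e⟫ * ⟪p z, e⟫ * ⟪p x, p z⟫ = ⟪p z, e⟫ * (⟪p x, e⟫ * ⟪p x, p z⟫) := by
        intro x; ring
      simp only [e2]
      rw [integral_const_mul, h.p2, real_inner_comm (p z) e]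
      ring
    simp only [this]
    rw [integral_const_mul, h.p2']
    ring
  rw [s1, s2, s3]
  ring

/-- lower bound of the test integral -/
lemma Sys.G_ge (h : Sys μ m p n) (hm : 1 ≤ m) {e : E} {l : ℝ} (hmo : Mo μ m p n e l) {S : ℝ}
    (hS : ∀ z, ∀ φ ∈ Ioo 0 (π / 2), S ≤ V1 μ m p z φ) {φ : ℝ} (hφ : φ ∈ Ioo 0 (π / 2)) :
    4 * S * l - 2 * μ.real univ ^ 2 * (cos φ ^ 2 / sin φ)
      ≤ cos φ ^ (m + 2) * E2 μ p (m + 1) (gg p e) φ := by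
  obtain ⟨hs, hc, hI⟩ := trig_pos hφ
  have he := hmo.he
  have hbs : ∀ q : X × X, |⟪p q.1, p q.2⟫| ≤ 1 := fun q => h.abs_pp q.1 q.2
  have mpe := (meas_pe h.toPts e).pow_const 2
  have bpe : ∀ x, |⟪p x, e⟫ ^ 2| ≤ 1 := fun x => abs_sq_le (abs_pe h.toPts he x)
  have i1 := int_EE (μ := μ.prod μ) (g := fun q : X × X => ⟪p q.1, e⟫ ^ 2) h.toPts.ms
    (mpe.comp measurable_fst) hbs (fun q => bpe q.1) hI (m + 1)
  have i2 := int_EE (μ := μ.prod μ) (g := fun q : X × X => ⟪p q.2, e⟫ ^ 2) h.toPts.ms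
    (mpe.comp measurable_snd) hbs (fun q => bpe q.2) hI (m + 1)
  have i3 := int_EE (μ := μ.prod μ) (g := fun _ : X × X => (1 : ℝ)) h.toPts.ms
    measurable_const hbs abs_one_le hI m
  have i4 := int_EE (μ := μ.prod μ) (g := gg p e) h.toPts.ms
    (meas_gg h.toPts e) hbs (abs_gg h.toPts he) hI (m + 1)
  -- pointwise bound
  have hpt : 2 * E2 μ p (m + 1) (fun q => ⟪p q.1, e⟫ ^ 2) φ
      + 2 * E2 μ p (m + 1) (fun q => ⟪p q.2, e⟫ ^ 2) φ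
      + (-(2 / sin φ)) * E2 μ p m (fun _ => 1) φ ≤ E2 μ p (m + 1) (gg p e) φ := by
    unfold E2 EE
    rw [← lin3 i1 i2 i3]
    refine integral_mono (((i1.const_mul _).add (i2.const_mul _)).add (i3.const_mul _)) i4
      fun q => ?_
    simp only
    have hd := den_pos hI (hbs q)
    have hD := (DD_pos (k := m + 1) hd).le
    rw [DD_succ (k := m) hd.ne']
    have h1 : (⟪p q.1, e⟫ - ⟪p q.2, e⟫) ^ 2 ≤ 2 - 2 * ⟪p q.1, p q.2⟫ := by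
      rw [← inner_sub_left]
      have h2 := abs_real_inner_le_norm (p q.1 - p q.2) e
      rw [he, mul_one] at h2
      have h3 : ⟪p q.1 - p q.2, e⟫ ^ 2 ≤ ‖p q.1 - p q.2‖ ^ 2 := sq_le_sq' (by
        have := (abs_le.mp h2).1; linarith) (abs_le.mp h2).2
      rw [norm_sub_sq_real, h.np, h.np] at h3
      linarith
    have h4 : 2 - 2 * ⟪p q.1, p q.2⟫ ≤ 2 / sin φ * (1 - ⟪p q.1, p q.2⟫ * sin φ) := by
      have h5 : 1 ≤ 1 / sin φ := by rw [one_le_div hs]; exact sin_le_one φ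
      have h6 : 2 / sin φ * (1 - ⟪p q.1, p q.2⟫ * sin φ) = 2 * (1 / sin φ) - 2 * ⟪p q.1, p q.2⟫ := by
        field_simp
      rw [h6]; linarith
    have h7 : 0 ≤ (gg p e q - (2 * ⟪p q.1, e⟫ ^ 2 + 2 * ⟪p q.2, e⟫ ^ 2
        - 2 / sin φ * (1 - ⟪p q.1, p q.2⟫ * sin φ))) * DD (m + 1) φ ⟪p q.1, p q.2⟫ := by
      apply mul_nonneg _ hD
      unfold gg
      nlinarith
    linarith
  rw [E2_fst (fun x => ⟪p x, e⟫ ^ 2)] at hpt
  -- the main term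
  have hmain : S * l ≤ cos φ ^ (m + 2) * E2 μ p (m + 1) (fun q => ⟪p q.2, e⟫ ^ 2) φ := by
    obtain ⟨j1, e1⟩ := E2_prod (μ := μ) h.toPts (g := fun q => ⟪p q.2, e⟫ ^ 2)
      (mpe.comp measurable_snd) (fun q => bpe q.2) (m + 1) hI
    rw [e1, ← hmo.p2', ← integral_const_mul, ← integral_const_mul]
    refine integral_mono ((int_bdd mpe bpe).const_mul _) (j1.const_mul _) fun z => ?_
    simp only
    have h1 : E1 μ p z (m + 1) (fun _ => ⟪p z, e⟫ ^ 2) φ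
        = ⟪p z, e⟫ ^ 2 * E1 μ p z (m + 1) (fun _ => 1) φ := by
      unfold E1
      rw [← EE_smul]
      simp only [mul_one]
    rw [h1]
    have h2 : S ≤ cos φ ^ (m + 2) * E1 μ p z (m + 1) (fun _ => 1) φ :=
      psi_ge' (μ := μ) (t := fun x => ⟪n x, p z⟫) (h.toPts.ms1 z) (fun x => h.abs_pp x z) hm
        (fun ψ hψ => h.toTwoPt.oneb z hψ) (fun ψ hψ => h.onea z ψ hψ)
        (fun ψ hψ => by
          have := hS z ψ hψ
          rwa [V1_eq'] at this) hφ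
    have h3 := mul_le_mul_of_nonneg_right h2 (sq_nonneg ⟪p z, e⟫)
    linarith
  have hJ := h.JJ_le (φ := φ) ⟨hφ.1.le, hφ.2⟩
  rw [JJ_eq'] at hJ
  have hcp : 0 ≤ cos φ ^ (m + 2) := by positivity
  have h1 := mul_le_mul_of_nonneg_left hpt hcp
  have h2 : cos φ ^ (m + 2) * (2 / sin φ * E2 μ p m (fun _ => 1) φ)
      = 2 * (cos φ ^ 2 / sin φ) * (cos φ ^ m * E2 μ p m (fun _ => 1) φ) := by
    rw [pow_add]; field_simp
  have h3 : 2 * (cos φ ^ 2 / sin φ) * (cos φ ^ m * E2 μ p m (fun _ => 1) φ)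
      ≤ 2 * (cos φ ^ 2 / sin φ) * μ.real univ ^ 2 :=
    mul_le_mul_of_nonneg_left hJ (by positivity)
  linarith

end

end Vale.Agent.P224.FV
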