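import Vale.Agent.P224.GG.PartII2

namespace Vale.Agent.P224.FV

open MeasureTheory Set Real Filter
open scoped RealInnerProductSpace Topology

set_option linter.unusedSectionVars false

section

variable {X : Type*} [MeasurableSpace X] {E : Type*} [NormedAddCommGroup E]
  [InnerProductSpace ℝ E] [FiniteDimensional ℝ E] [MeasurableSpace E] [BorelSpace E]
  {μ : Measure X} [IsFiniteMeasure μ] {m : ℕ} {p n : X → E}

/-- the test integral at zero -/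
lemma Sys.dG0 (h : Sys μ m p n) {e : E} {l : ℝ} (hmo : Mo μ m p n e l) :
    HasDerivAt (fun φ => cos φ ^ (m + 2) * E2 μ p (m + 1) (gg p e) φ)
      (2 * ((m : ℝ) + 1) * l ^ 2) 0 := by
  have h1 := hasDerivAt_EE (μ := μ.prod μ) h.toPts.ms (meas_gg h.toPts e)
    (fun q => h.abs_pp q.1 q.2) (abs_gg h.toPts hmo.he) (m + 1) zero_mem
  refine (((Real.hasDerivAt_cos 0).fun_pow (m + 2)).fun_mul h1).congr_deriv ?_
  rw [EE_at_zero, EE_at_zero, hmo.G1 h.toPts]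
  simp only [cos_zero, sin_zero, one_pow]
  push_cast
  ring

/-- the first interval -/
lemma Sys.int_one (h : Sys μ m p n) (hm : 1 ≤ m) {e : E} {l : ℝ} (hmo : Mo μ m p n e l) {κ : ℝ}
    (hκ0 : 0 ≤ κ) (hκ1 : κ ≤ 1) (hκ : μ.real univ * κ = ((m : ℝ) + 1) * l) {γ φ₂ : ℝ}
    (h2 : φ₂ ∈ Ioo 0 (π / 2)) (hγ0 : 0 ≤ γ)
    (hγ : ∀ r, 0 ≤ r → r ≤ sin φ₂ → 1 ≤ (1 + r + γ * r ^ 2) * ((1 - r ^ 2) * (1 - r))) :
    (cos φ₂ ^ (m + 2) * E2 μ p (m + 1) (gg p e) φ₂ - 2 * μ.real univ * l) / sin φ₂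
      ≤ 2 * ((m : ℝ) + 1) * l ^ 2
        + 2 / (m + 1) * μ.real univ ^ 2 * (2 * κ - κ ^ 2) * gH γ (sin φ₂) := by
  have hm0 : (0 : ℝ) < m := by exact_mod_cast hm
  have he := hmo.he
  have hn : ∫ x, ⟪n x, e⟫ ^ 2 ∂μ = μ.real univ * (1 - κ) := by rw [hmo.n2, ← hκ]; ring
  set V := μ.real univ with hV
  set G : ℝ → ℝ := fun φ => cos φ ^ (m + 2) * E2 μ p (m + 1) (gg p e) φ with hG
  set c : ℝ := 2 / (m + 1) * V ^ 2 * (2 * κ - κ ^ 2) with hc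
  have hG0 : G 0 = 2 * V * l := by
    simp only [hG, cos_zero, one_pow, one_mul]
    exact hmo.G0 h.toPts (m + 1)
  set U : ℝ → ℝ := fun φ => (G φ - G 0) / sin φ - c * gH γ (sin φ) with hU
  have hgH : ∀ φ, HasDerivAt (fun φ => gH γ (sin φ))
      (cos φ * (1 / 2 + sin φ / 3 + γ * sin φ ^ 2 / 4)) φ := by
    intro φ
    unfold gH
    have hd := Real.hasDerivAt_sin φ
    refine (((hd.div_const 2).fun_add ((hd.fun_pow 2).div_const 6)).fun_add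
      (((hd.fun_pow 3).const_mul γ).div_const 12)).congr_deriv ?_
    simp only [Nat.add_one_sub_one, pow_one, show 3 - 1 = 2 by norm_num]
    push_cast
    ring
  have hsub : ∀ φ ∈ Ioc 0 φ₂, φ ∈ Ioo 0 (π / 2) := fun φ hφ => ⟨hφ.1, hφ.2.trans_lt h2.2⟩
  have hUd : ∀ φ ∈ Ioc 0 φ₂, ∃ D, HasDerivAt U D φ ∧ D ≤ 0 := by
    intro φ hφ
    have hφ' := hsub φ hφ
    obtain ⟨hs, hcs, hI⟩ := trig_pos hφ'
    have hd := (((h.dG he hφ').sub_const (G 0)).fun_div (Real.hasDerivAt_sin φ) hs.ne').fun_sub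
      ((hgH φ).const_mul c)
    refine ⟨_, hd, ?_⟩
    have h3 := h.Lam_def he hφ'
    rw [hmo.nu_int h.toPts] at h3
    have h4 := h.J_ge hm he hκ0 hκ1 hn h2 hγ0 hγ ⟨hφ.1.le, hφ.2⟩
    set Λ := cos φ ^ m * E2 μ p m (fun q => nu p n e q.2) φ with hΛ
    set R := E2 μ p (m + 2) (fun q => gg p e q * ⟪n q.1, p q.2⟫ ^ 2) φ with hR
    have hR0 : 0 ≤ R := EE_nonneg (μ := μ.prod μ) (s := fun q : X × X => ⟪p q.1, p q.2⟫)
      (g := fun q => gg p e q * ⟪n q.1, p q.2⟫ ^ 2)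
      (fun q => h.abs_pp q.1 q.2) (fun q => mul_nonneg (sq_nonneg _) (sq_nonneg _)) (m + 2) hI
    have e1 : ((cos φ / sin φ * (cos φ ^ (m + 2) * E2 μ p (m + 1) (gg p e) φ - 2 / m * Λ)
        - ((m : ℝ) + 1) * cos φ ^ (m + 1) * sin φ * R) * sin φ
        - (cos φ ^ (m + 2) * E2 μ p (m + 1) (gg p e) φ - G 0) * cos φ) / sin φ ^ 2
        - c * (cos φ * (1 / 2 + sin φ / 3 + γ * sin φ ^ 2 / 4))
        = cos φ / sin φ ^ 2 * ((G 0 - 2 / m * Λ) - c * gh γ (sin φ))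
          - ((m : ℝ) + 1) * cos φ ^ (m + 1) * R := by
      unfold gh
      field_simp
      ring
    rw [e1]
    have h5 : G 0 - 2 / m * Λ ≤ c * gh γ (sin φ) := by
      have e2 : G 0 - 2 / m * Λ = 2 / m * (V * (m * l) - Λ) := by
        rw [hG0]; field_simp
      rw [e2]
      have h6 : V * (m * l) - Λ ≤ V ^ 2 * (m / (m + 1) * (2 * κ - κ ^ 2) * gh γ (sin φ)) := by
        linarith
      have h7 := mul_le_mul_of_nonneg_left h6 (show 0 ≤ 2 / (m : ℝ) by positivity)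
      refine h7.trans (le_of_eq ?_)
      rw [hc]
      field_simp
    have h6 : cos φ / sin φ ^ 2 * ((G 0 - 2 / m * Λ) - c * gh γ (sin φ)) ≤ 0 :=
      mul_nonpos_of_nonneg_of_nonpos (by positivity) (by linarith)
    have h7 : 0 ≤ ((m : ℝ) + 1) * cos φ ^ (m + 1) * R := by positivity
    linarith
  have hanti : AntitoneOn U (Ioc 0 φ₂) := by
    apply antitoneOn_of_deriv_nonpos (convex_Ioc 0 φ₂)
    · intro φ hφ
      obtain ⟨D, hD, -⟩ := hUd φ hφ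
      exact hD.continuousAt.continuousWithinAt
    · intro φ hφ
      rw [interior_Ioc] at hφ
      obtain ⟨D, hD, -⟩ := hUd φ ⟨hφ.1, hφ.2.le⟩
      exact hD.differentiableAt.differentiableWithinAt
    · intro φ hφ
      rw [interior_Ioc] at hφ
      obtain ⟨D, hD, hD0⟩ := hUd φ ⟨hφ.1, hφ.2.le⟩
      rw [hD.deriv]; exact hD0
  have hlim : Tendsto U (𝓝[>] 0) (𝓝 (2 * ((m : ℝ) + 1) * l ^ 2)) := by
    have d1 : HasDerivAt (fun φ => G φ - G 0) (2 * ((m : ℝ) + 1) * l ^ 2) 0 :=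
      (h.dG0 hmo).sub_const _
    have d2 : HasDerivAt sin 1 0 := by simpa using hasDerivAt_sin 0
    have s1 := (hasDerivAt_iff_tendsto_slope.mp d1).mono_left
      (nhdsWithin_mono 0 (fun x (hx : x ∈ Ioi (0 : ℝ)) => (ne_of_gt hx : x ∈ ({0} : Set ℝ)ᶜ)))
    have s2 := (hasDerivAt_iff_tendsto_slope.mp d2).mono_left
      (nhdsWithin_mono 0 (fun x (hx : x ∈ Ioi (0 : ℝ)) => (ne_of_gt hx : x ∈ ({0} : Set ℝ)ᶜ)))
    have s3 := s1.div s2 one_ne_zero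
    have s4 : Tendsto (fun φ => (G φ - G 0) / sin φ) (𝓝[>] 0)
        (𝓝 (2 * ((m : ℝ) + 1) * l ^ 2 / 1)) := by
      refine s3.congr' ?_
      filter_upwards [self_mem_nhdsWithin] with φ hφ
      have hφ0 : (φ : ℝ) ≠ 0 := ne_of_gt hφ
      simp only [Pi.div_apply, slope, sin_zero, sub_zero, sub_self, vsub_eq_sub,
        smul_eq_mul]
      field_simp
    have t1 : Tendsto (fun φ => c * gH γ (sin φ)) (𝓝[>] 0) (𝓝 (c * gH γ (sin 0))) :=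
      ((hgH 0).continuousAt.tendsto.const_mul c).mono_left nhdsWithin_le_nhds
    have t2 := s4.sub t1
    have e3 : 2 * ((m : ℝ) + 1) * l ^ 2 / 1 - c * gH γ (sin 0) = 2 * ((m : ℝ) + 1) * l ^ 2 := by
      unfold gH
      simp
    rwa [e3] at t2
  have key : U φ₂ ≤ 2 * ((m : ℝ) + 1) * l ^ 2 := by
    apply ge_of_tendsto hlim
    filter_upwards [Ioo_mem_nhdsGT h2.1] with φ hφ
    exact hanti ⟨hφ.1, hφ.2.le⟩ (right_mem_Ioc.mpr h2.1) hφ.2.le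
  simp only [hU] at key
  rw [hG0] at key
  linarith

/-- the second interval -/
lemma Sys.int_two (h : Sys μ m p n) (hm : 1 ≤ m) {e : E} {l : ℝ} (hmo : Mo μ m p n e l)
    (hl : 0 ≤ l) {S : ℝ} (hS0 : 0 ≤ S)
    (hS : ∀ z, ∀ φ ∈ Ioo 0 (π / 2), S ≤ V1 μ m p z φ) {φ₂ : ℝ} (h2 : φ₂ ∈ Ioo 0 (π / 2)) :
    2 * S * l ≤ (cos φ₂ ^ (m + 2) * E2 μ p (m + 1) (gg p e) φ₂ - 2 * μ.real univ * l) / sin φ₂
      + 2 * (μ.real univ - S) * l / sin φ₂ := by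
  have hm0 : (0 : ℝ) < m := by exact_mod_cast hm
  have he := hmo.he
  set V := μ.real univ with hV
  set G : ℝ → ℝ := fun φ => cos φ ^ (m + 2) * E2 μ p (m + 1) (gg p e) φ with hG
  set U : ℝ → ℝ := fun φ => (G φ - (2 * V * l - 2 * (V - S) * l)) / sin φ with hU
  have hsub : ∀ φ ∈ Ico φ₂ (π / 2), φ ∈ Ioo 0 (π / 2) := fun φ hφ => ⟨h2.1.trans_le hφ.1, hφ.2⟩
  have hUd : ∀ φ ∈ Ico φ₂ (π / 2), ∃ D, HasDerivAt U D φ ∧ D ≤ 0 := by
    intro φ hφ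
    have hφ' := hsub φ hφ
    obtain ⟨hs, hcs, hI⟩ := trig_pos hφ'
    have hd := (((h.dG he hφ').sub_const (2 * V * l - 2 * (V - S) * l)).fun_div
      (Real.hasDerivAt_sin φ) hs.ne')
    refine ⟨_, hd, ?_⟩
    have h3 := h.Lam_ge he hS hφ'
    rw [hmo.nu_int h.toPts] at h3
    set Λ := cos φ ^ m * E2 μ p m (fun q => nu p n e q.2) φ with hΛ
    set R := E2 μ p (m + 2) (fun q => gg p e q * ⟪n q.1, p q.2⟫ ^ 2) φ with hR
    have hR0 : 0 ≤ R := EE_nonneg (μ := μ.prod μ) (s := fun q : X × X => ⟪p q.1, p q.2⟫)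
      (g := fun q => gg p e q * ⟪n q.1, p q.2⟫ ^ 2)
      (fun q => h.abs_pp q.1 q.2) (fun q => mul_nonneg (sq_nonneg _) (sq_nonneg _)) (m + 2) hI
    have e1 : ((cos φ / sin φ * (cos φ ^ (m + 2) * E2 μ p (m + 1) (gg p e) φ - 2 / m * Λ)
        - ((m : ℝ) + 1) * cos φ ^ (m + 1) * sin φ * R) * sin φ
        - (cos φ ^ (m + 2) * E2 μ p (m + 1) (gg p e) φ - (2 * V * l - 2 * (V - S) * l)) * cos φ)
          / sin φ ^ 2
        = 2 * cos φ / (m * sin φ ^ 2) * (S * (m * l) - Λ)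
          - ((m : ℝ) + 1) * cos φ ^ (m + 1) * R := by
      field_simp
      ring
    rw [e1]
    have h6 : 2 * cos φ / (m * sin φ ^ 2) * (S * (m * l) - Λ) ≤ 0 :=
      mul_nonpos_of_nonneg_of_nonpos (by positivity) (by linarith)
    have h7 : 0 ≤ ((m : ℝ) + 1) * cos φ ^ (m + 1) * R := by positivity
    linarith
  have hanti : AntitoneOn U (Ico φ₂ (π / 2)) := by
    apply antitoneOn_of_deriv_nonpos (convex_Ico φ₂ (π / 2))
    · intro φ hφ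
      obtain ⟨D, hD, -⟩ := hUd φ hφ
      exact hD.continuousAt.continuousWithinAt
    · intro φ hφ
      rw [interior_Ico] at hφ
      obtain ⟨D, hD, -⟩ := hUd φ ⟨hφ.1.le, hφ.2⟩
      exact hD.differentiableAt.differentiableWithinAt
    · intro φ hφ
      rw [interior_Ico] at hφ
      obtain ⟨D, hD, hD0⟩ := hUd φ ⟨hφ.1.le, hφ.2⟩
      rw [hD.deriv]; exact hD0
  have key : 2 * S * l ≤ U φ₂ := by
    have ht : Tendsto (fun φ => 2 * S * l - 2 * V ^ 2 * (cos φ ^ 2 / sin φ ^ 2)) (𝓝[<] (π / 2))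
        (𝓝 (2 * S * l - 2 * V ^ 2 * (cos (π / 2) ^ 2 / sin (π / 2) ^ 2))) := by
      have hc : ContinuousAt (fun φ => 2 * S * l - 2 * V ^ 2 * (cos φ ^ 2 / sin φ ^ 2)) (π / 2) := by
        refine ContinuousAt.sub continuousAt_const (ContinuousAt.mul continuousAt_const ?_)
        refine ContinuousAt.div (continuous_cos.continuousAt.pow 2)
          (continuous_sin.continuousAt.pow 2) ?_
        rw [sin_pi_div_two]; norm_num
      exact hc.tendsto.mono_left nhdsWithin_le_nhds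
    rw [cos_pi_div_two] at ht
    have e0 : 2 * S * l - 2 * V ^ 2 * (0 ^ 2 / sin (π / 2) ^ 2) = 2 * S * l := by
      simp
    rw [e0] at ht
    apply le_of_tendsto ht
    filter_upwards [Ioo_mem_nhdsLT h2.2] with φ hφ
    have hφ' := hsub φ ⟨hφ.1.le, hφ.2⟩
    obtain ⟨hs, hcs, hI⟩ := trig_pos hφ'
    have h3 := hanti (left_mem_Ico.mpr h2.2) (⟨hφ.1.le, hφ.2⟩ : φ ∈ Ico φ₂ (π / 2)) hφ.1.le
    refine le_trans ?_ h3
    have h4 := h.G_ge hm hmo hS hφ'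
    simp only [hU]
    rw [le_div_iff₀ hs]
    have h5 : (2 * S * l - 2 * V ^ 2 * (cos φ ^ 2 / sin φ ^ 2)) * sin φ
        = 2 * S * l * sin φ - 2 * V ^ 2 * (cos φ ^ 2 / sin φ) := by
      field_simp
    rw [h5]
    have h6 : 2 * S * l * sin φ ≤ 2 * S * l * 1 :=
      mul_le_mul_of_nonneg_left (sin_le_one φ) (by positivity)
    simp only [hG]
    linarith
  refine key.trans (le_of_eq ?_)
  simp only [hU, hG]
  ring

/-- the second inequality -/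
theorem Sys.part_two (h : Sys μ m p n) (hm : 1 ≤ m) {e : E} {l : ℝ} (hmo : Mo μ m p n e l)
    (hl : 0 < l) {κ : ℝ}
    (hκ0 : 0 ≤ κ) (hκ1 : κ ≤ 1) (hκ : μ.real univ * κ = ((m : ℝ) + 1) * l) {γ φ₂ : ℝ}
    (h2 : φ₂ ∈ Ioo 0 (π / 2)) (hγ0 : 0 ≤ γ)
    (hγ : ∀ r, 0 ≤ r → r ≤ sin φ₂ → 1 ≤ (1 + r + γ * r ^ 2) * ((1 - r ^ 2) * (1 - r)))
    {S : ℝ} (hS0 : 0 ≤ S) (hS : ∀ z, ∀ φ ∈ Ioo 0 (π / 2), S ≤ V1 μ m p z φ) :
    (1 + sin φ₂) * S ≤ μ.real univ *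
      (1 + sin φ₂ * κ + (2 - κ) * (sin φ₂ * gH γ (sin φ₂))) := by
  obtain ⟨hs, hcs, hI⟩ := trig_pos h2
  have hm0 : (0 : ℝ) < m := by exact_mod_cast hm
  have k1 := h.int_one hm hmo hκ0 hκ1 hκ h2 hγ0 hγ
  have k2 := h.int_two hm hmo hl.le hS0 hS h2
  set V := μ.real univ with hV
  set G := cos φ₂ ^ (m + 2) * E2 μ p (m + 1) (gg p e) φ₂
  have k3 : 2 * S * l ≤ 2 * ((m : ℝ) + 1) * l ^ 2
        + 2 / (m + 1) * V ^ 2 * (2 * κ - κ ^ 2) * gH γ (sin φ₂)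
      + 2 * (V - S) * l / sin φ₂ := by linarith
  have e1 : 2 * ((m : ℝ) + 1) * l ^ 2 = (2 * l) * (V * κ) := by rw [hκ]; ring
  have e2 : 2 / ((m : ℝ) + 1) * V ^ 2 * (2 * κ - κ ^ 2) * gH γ (sin φ₂)
      = (2 * l) * (V * (2 - κ) * gH γ (sin φ₂)) := by
    have : V ^ 2 * (2 * κ - κ ^ 2) = V * (V * κ) * (2 - κ) := by ring
    have e3 : 2 / ((m : ℝ) + 1) * V ^ 2 * (2 * κ - κ ^ 2) * gH γ (sin φ₂)
        = 2 / ((m : ℝ) + 1) * (V ^ 2 * (2 * κ - κ ^ 2)) * gH γ (sin φ₂) := by ring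
    rw [e3, this, hκ]
    field_simp
  have e3 : 2 * (V - S) * l / sin φ₂ = (2 * l) * ((V - S) / sin φ₂) := by ring
  have e4 : 2 * S * l = (2 * l) * S := by ring
  rw [e1, e2, e3, e4, ← mul_add, ← mul_add] at k3
  have k4 := le_of_mul_le_mul_left k3 (by positivity)
  have k5 := mul_le_mul_of_nonneg_left k4 hs.le
  have e5 : sin φ₂ * (V * κ + V * (2 - κ) * gH γ (sin φ₂) + (V - S) / sin φ₂)
      = V * (sin φ₂ * κ) + V * ((2 - κ) * (sin φ₂ * gH γ (sin φ₂))) + (V - S) := by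
    field_simp
  rw [e5] at k5
  linarith

end

end Vale.Agent.P224.FV
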