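import Vale.Agent.P224.GG.Base

namespace Vale.Agent.P224.FV

open MeasureTheory Set Real Filter
open scoped RealInnerProductSpace Topology

set_option linter.unusedSectionVars false

/-- lower bound for the second conformal volume -/
lemma psi_ge {Φ Ψ : ℝ → ℝ} {m S : ℝ} (hm : 0 < m)
    (dΦ : ∀ φ ∈ Ioo 0 (π / 2), HasDerivAt Φ (m / (sin φ * cos φ) * (Ψ φ - Φ φ)) φ)
    (hΨ : AntitoneOn Ψ (Ioo 0 (π / 2))) (hΦ : ∀ φ ∈ Ioo 0 (π / 2), S ≤ Φ φ) {φ : ℝ}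
    (hφ : φ ∈ Ioo 0 (π / 2)) : S ≤ Ψ φ := by
  by_contra hcon
  push Not at hcon
  set ε := S - Ψ φ with hε
  have hε0 : 0 < ε := by rw [hε]; linarith
  have hsub : ∀ ψ ∈ Ico φ (π / 2), ψ ∈ Ioo 0 (π / 2) := fun ψ hψ => ⟨hφ.1.trans_le hψ.1, hψ.2⟩
  have hder : ∀ ψ ∈ Ico φ (π / 2), HasDerivAt
      (fun ψ => Φ ψ - m * ε * log (cos ψ))
      (m / (sin ψ * cos ψ) * (Ψ ψ - Φ ψ) - m * ε * (-sin ψ / cos ψ)) ψ := by
    intro ψ hψ
    obtain ⟨hs, hc, -⟩ := trig_pos (hsub ψ hψ)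
    exact (dΦ ψ (hsub ψ hψ)).fun_sub (((Real.hasDerivAt_cos ψ).log hc.ne').const_mul _)
  have hanti : AntitoneOn (fun ψ => Φ ψ - m * ε * log (cos ψ)) (Ico φ (π / 2)) := by
    refine antitoneOn_of_deriv_nonpos (convex_Ico φ (π / 2)) ?_ ?_ ?_
    · exact fun ψ hψ => (hder ψ hψ).continuousAt.continuousWithinAt
    · intro ψ hψ
      rw [interior_Ico] at hψ
      exact (hder ψ ⟨hψ.1.le, hψ.2⟩).differentiableAt.differentiableWithinAt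
    · intro ψ hψ
      rw [interior_Ico] at hψ
      have hψ' := hsub ψ ⟨hψ.1.le, hψ.2⟩
      obtain ⟨hs, hc, -⟩ := trig_pos hψ'
      rw [(hder ψ ⟨hψ.1.le, hψ.2⟩).deriv]
      have h1 := hΨ hφ hψ' hψ.1.le
      have h2 := hΦ ψ hψ'
      have h3 : Ψ ψ - Φ ψ ≤ -ε := by rw [hε]; linarith
      have h4 : m / (sin ψ * cos ψ) * (Ψ ψ - Φ ψ) ≤ m / (sin ψ * cos ψ) * (-ε) :=
        mul_le_mul_of_nonneg_left h3 (by positivity)
      have h5 : m / (sin ψ * cos ψ) * (-ε) - m * ε * (-sin ψ / cos ψ)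
          = - (m * ε / (sin ψ * cos ψ) * (1 - sin ψ ^ 2)) := by
        field_simp
        ring
      have h6 : 0 ≤ m * ε / (sin ψ * cos ψ) * (1 - sin ψ ^ 2) := by
        have : 0 ≤ 1 - sin ψ ^ 2 := by linarith [sin_sq_add_cos_sq ψ, sq_nonneg (cos ψ)]
        positivity
      linarith
  have hlog : Tendsto (fun ψ => log (cos ψ)) (𝓝[<] (π / 2)) atBot :=
    Real.tendsto_log_nhdsGT_zero.comp Real.tendsto_cos_pi_div_two
  have h1 := hlog.eventually_lt_atBot ((S - (Φ φ - m * ε * log (cos φ))) / (m * ε))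
  have h2 : ∀ᶠ ψ in 𝓝[<] (π / 2), ψ ∈ Ioo φ (π / 2) := Ioo_mem_nhdsLT hφ.2
  obtain ⟨ψ, hψ1, hψ2⟩ := (h1.and h2).exists
  have h3 := hanti ⟨le_rfl, hφ.2⟩ (⟨hψ2.1.le, hψ2.2⟩ : ψ ∈ Ico φ (π / 2)) hψ2.1.le
  simp only at h3
  have h4 := hΦ ψ (hsub ψ ⟨hψ2.1.le, hψ2.2⟩)
  rw [lt_div_iff₀ (by positivity)] at hψ1
  linarith

section

variable {X : Type*} [MeasurableSpace X] {μ : Measure X} [IsFiniteMeasure μ] {m : ℕ} {s : X → ℝ}

/-- derivative of the first normalised integral -/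
lemma dcosEE (ms : Measurable s) (s1 : ∀ x, |s x| ≤ 1) (hm : 1 ≤ m) {g : X → ℝ}
    (hg : Measurable g) {C : ℝ} (hg1 : ∀ x, |g x| ≤ C) {φ : ℝ} (hφ : φ ∈ Ioo 0 (π / 2)) :
    HasDerivAt (fun φ => cos φ ^ m * EE μ s m g φ)
      (m / (sin φ * cos φ) * (cos φ ^ (m + 2) * EE μ s (m + 1) g φ
        - cos φ ^ m * EE μ s m g φ)) φ := by
  obtain ⟨j, rfl⟩ : ∃ j, m = j + 1 := ⟨m - 1, by omega⟩
  obtain ⟨hs, hc, -⟩ := trig_pos hφ
  refine (hasDerivAt_cosEE (μ := μ) ms hg s1 hg1 j (j + 1) hφ).congr_deriv ?_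
  have hS : sin φ ^ 2 = 1 - cos φ ^ 2 := by have := sin_sq_add_cos_sq φ; linarith
  rw [hS]
  push_cast
  field_simp
  ring

/-- derivative of the second normalised integral -/
lemma dcosEE2 (ms : Measurable s) (s1 : ∀ x, |s x| ≤ 1) {g : X → ℝ}
    (hg : Measurable g) {C : ℝ} (hg1 : ∀ x, |g x| ≤ C) {φ : ℝ} (hφ : φ ∈ Ioo 0 (π / 2)) :
    HasDerivAt (fun φ => cos φ ^ (m + 2) * EE μ s (m + 1) g φ)
      (cos φ ^ (m + 1) / sin φ * (((m : ℝ) + 1) * (cos φ ^ 2 * EE μ s (m + 2) g φ)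
        - ((m : ℝ) + 2) * EE μ s (m + 1) g φ + cos φ ^ 2 * EE μ s (m + 1) g φ)) φ := by
  obtain ⟨hs, hc, -⟩ := trig_pos hφ
  refine (hasDerivAt_cosEE (μ := μ) ms hg s1 hg1 (m + 1) (m + 1) hφ).congr_deriv ?_
  have hS : sin φ ^ 2 = 1 - cos φ ^ 2 := by have := sin_sq_add_cos_sq φ; linarith
  rw [hS]
  push_cast
  ring

/-- the second conformal volume at a point is at least the value of the limit -/
lemma psi_ge' {t : X → ℝ} (ms : Measurable s) (s1 : ∀ x, |s x| ≤ 1) (hm : 1 ≤ m)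
    (oneb : ∀ φ ∈ Ioo 0 (π / 2), EE μ s m (fun _ => 1) φ
      = cos φ ^ 2 * EE μ s (m + 1) (fun _ => 1) φ
        + sin φ ^ 2 * EE μ s (m + 1) (fun x => t x ^ 2) φ)
    (onea : ∀ φ ∈ Ioo 0 (π / 2), ((m : ℝ) + 2) * EE μ s (m + 1) (fun _ => 1) φ
      - EE μ s m (fun _ => 1) φ = ((m : ℝ) + 1) * (cos φ ^ 2 * EE μ s (m + 2) (fun _ => 1) φ
        + sin φ ^ 2 * EE μ s (m + 2) (fun x => t x ^ 2) φ))
    {S : ℝ} (hS : ∀ φ ∈ Ioo 0 (π / 2), S ≤ cos φ ^ m * EE μ s m (fun _ => 1) φ)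
    {φ : ℝ} (hφ : φ ∈ Ioo 0 (π / 2)) :
    S ≤ cos φ ^ (m + 2) * EE μ s (m + 1) (fun _ => 1) φ := by
  have hm0 : (0 : ℝ) < m := by exact_mod_cast hm
  refine psi_ge (Φ := fun φ => cos φ ^ m * EE μ s m (fun _ => 1) φ)
    (Ψ := fun φ => cos φ ^ (m + 2) * EE μ s (m + 1) (fun _ => 1) φ) hm0
    (fun ψ hψ => dcosEE ms s1 hm measurable_const abs_one_le hψ) ?_ hS hφ
  refine antitoneOn_of_deriv_nonpos (convex_Ioo 0 (π / 2)) ?_ ?_ ?_
  · exact fun ψ hψ => (dcosEE2 (m := m) (μ := μ) ms s1 (g := fun _ => 1) measurable_const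
      abs_one_le hψ).continuousAt.continuousWithinAt
  · intro ψ hψ
    rw [interior_Ioo] at hψ
    exact (dcosEE2 (m := m) (μ := μ) ms s1 (g := fun _ => 1) measurable_const
      abs_one_le hψ).differentiableAt.differentiableWithinAt
  · intro ψ hψ
    rw [interior_Ioo] at hψ
    obtain ⟨hs, hc, hI⟩ := trig_pos hψ
    rw [(dcosEE2 (m := m) (μ := μ) ms s1 (g := fun _ => 1) measurable_const
      abs_one_le hψ).deriv]
    have h1 := oneb ψ hψ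
    have h2 := onea ψ hψ
    have h3 : 0 ≤ EE μ s (m + 1) (fun x => t x ^ 2) ψ :=
      EE_nonneg s1 (fun x => sq_nonneg _) _ hI
    have h4 : 0 ≤ EE μ s (m + 2) (fun x => t x ^ 2) ψ :=
      EE_nonneg s1 (fun x => sq_nonneg _) _ hI
    have e : ((m : ℝ) + 1) * (cos ψ ^ 2 * EE μ s (m + 2) (fun _ => 1) ψ)
        - ((m : ℝ) + 2) * EE μ s (m + 1) (fun _ => 1) ψ
        + cos ψ ^ 2 * EE μ s (m + 1) (fun _ => 1) ψ
        = -(sin ψ ^ 2 * (EE μ s (m + 1) (fun x => t x ^ 2) ψ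
          + ((m : ℝ) + 1) * EE μ s (m + 2) (fun x => t x ^ 2) ψ)) := by
      linear_combination -h1 - h2
    rw [e]
    have h5 : 0 ≤ cos ψ ^ (m + 1) / sin ψ * (sin ψ ^ 2 * (EE μ s (m + 1) (fun x => t x ^ 2) ψ
          + ((m : ℝ) + 1) * EE μ s (m + 2) (fun x => t x ^ 2) ψ)) := by positivity
    linarith

end

end Vale.Agent.P224.FV
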